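import Vale.Agent.P287T.Au.Defs

/-!
# Smooth algebraic charts of a surface of matrix factorizations: definitions and statements
-/

set_option linter.unusedVariables false

open MvPolynomial Module Filter Topology

noncomputable section

namespace Vale.Agent.P287T.Et

open Vale.Agent.P287T.Cy Vale.Agent.P287T.Df Vale.Agent.P287T.Au

section rel

variable {κ : Type} {ν : ℕ}

/-- polynomials in the variables `x` (indexed by `κ`) and `y` -/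
abbrev PP (κ : Type) (ν : ℕ) : Type := MvPolynomial (κ ⊕ Fin ν) ℂ

/-- the degree in `y` -/
def wy (κ : Type) (ν : ℕ) : κ ⊕ Fin ν → ℤ := Sum.elim (fun _ => 0) fun _ => 1

/-- homogeneous in `y` -/
def Hy (P : PP κ ν) : Prop := ∃ e : ℤ, IsWeightedHomogeneous (wy κ ν) P e

/-- the polynomials which are homogeneous in `y` and vanish on `T` -/
def JJ (T : Set (κ ⊕ Fin ν → ℂ)) : Set (PP κ ν) := {P | Hy P ∧ ∀ w ∈ T, eval w P = 0}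

/-- `T` is a cone in `y`, and locally in `y` it is cut out by polynomials in `x` whose coefficients
are analytic in `y`. -/
structure Rel (T : Set (κ ⊕ Fin ν → ℂ)) : Prop where
  ne : ∀ x z, Sum.elim x z ∈ T → z ≠ 0
  inv : ∀ x z (c : ℂ), c ≠ 0 → Sum.elim x z ∈ T → Sum.elim x (c • z) ∈ T
  loc : ∀ z₀ : Fin ν → ℂ, z₀ ≠ 0 → ∃ (μ : Type) (_ : Fintype μ) (u : (Fin ν → ℂ) → μ → ℂ)
    (Q : Set (MvPolynomial (κ ⊕ μ) ℂ)), AnalyticAt ℂ u z₀ ∧ ∀ᶠ z in 𝓝 z₀, ∀ x,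
      Sum.elim x z ∈ T ↔ ∀ P ∈ Q, eval (Sum.elim x (u z)) P = 0

end rel

/-- **RC**: the relative theorem of Chow. -/
def RC : Prop := ∀ (κ : Type) [Fintype κ] (ν : ℕ) (T : Set (κ ⊕ Fin ν → ℂ)), Rel T →
  ∀ w : κ ⊕ Fin ν → ℂ, w ∘ Sum.inr ≠ 0 → ((∀ P ∈ JJ T, eval w P = 0) → w ∈ T) ∧
    (w ∈ T → ∀ h : (κ ⊕ Fin ν → ℂ) → ℂ, AnalyticAt ℂ h w → (∀ᶠ v in 𝓝 w, v ∈ T → h v = 0) →
      ∀ ξ, (∀ P ∈ JJ T, fderiv ℂ (fun v => eval v P) w ξ = 0) → fderiv ℂ h w ξ = 0)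

/-- The output of the abstract construction: a graded algebra `D`, smooth over the coordinate ring
of `Z` and over `ℂ`, whose points lie in `Γ`, one of them over `w`. -/
structure Out {κ : Type} {ν : ℕ} (Z : Set (Fin ν → ℂ)) (Γ : Set (κ ⊕ Fin ν → ℂ))
    (w : κ ⊕ Fin ν → ℂ) where
  D : Type
  [cr : CommRing D]
  [ac : Algebra ℂ D]
  [ab : Algebra (MvPolynomial (Fin ν) ℂ ⧸ vanishingIdeal ℂ Z) D]
  [tw : IsScalarTower ℂ (MvPolynomial (Fin ν) ℂ ⧸ vanishingIdeal ℂ Z) D]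
  sm : Algebra.Smooth (MvPolynomial (Fin ν) ℂ ⧸ vanishingIdeal ℂ Z) D
  smC : Algebra.Smooth ℂ D
  𝒟 : ℤ → Submodule ℂ D
  [gr : GradedAlgebra 𝒟]
  θ : PP κ ν →ₐ[ℂ] D
  θy : ∀ i, θ (X (.inr i)) = algebraMap (MvPolynomial (Fin ν) ℂ ⧸ vanishingIdeal ℂ Z) D
    (Ideal.Quotient.mk _ (X i))
  hy : ∀ i, θ (X (.inr i)) ∈ 𝒟 1
  hx : ∀ k, θ (X (.inl k)) ∈ 𝒟 0
  van : ∀ P, (∀ v ∈ Γ, eval v P = 0) → θ P = 0
  pts : ∀ φ : D →ₐ[ℂ] ℂ, (fun s => φ (θ (X s))) ∈ Γ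
  φ : D →ₐ[ℂ] ℂ
  at0 : ∀ s, φ (θ (X s)) = w s

attribute [instance] Out.cr Out.ac Out.ab Out.tw Out.gr

/-- **ALG**: the abstract construction. -/
def ALG : Prop := ∀ (κ : Type) [Fintype κ] (ν n : ℕ) (Z : Set (Fin ν → ℂ)),
  P287Q.PV (P287Q.Cub.π₀ (Fin ν)) Z n → ∀ (Γ : Set (κ ⊕ Fin ν → ℂ)) (w : κ ⊕ Fin ν → ℂ)
  (𝒥 : Set (PP κ ν)) (h : PP κ ν) (E : Type) [NormedAddCommGroup E] [NormedSpace ℂ E]
  [FiniteDimensional ℂ E] (ψ : E × (Fin ν → ℂ) → κ → ℂ),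
  w ∘ Sum.inr ∈ Z → 𝒥 ⊆ JJ Γ → Hy h → eval w h ≠ 0 →
  (∀ v : κ ⊕ Fin ν → ℂ, v ∘ Sum.inr ∈ Z → (∀ P ∈ 𝒥, eval v P = 0) → eval v h ≠ 0 → v ∈ Γ) →
  AnalyticAt ℂ ψ (0, w ∘ Sum.inr) → ψ (0, w ∘ Sum.inr) = w ∘ Sum.inl →
  (∀ᶠ q in 𝓝 (0, w ∘ Sum.inr), q.2 ∈ Z → Sum.elim (ψ q) q.2 ∈ Γ) →
  (∀ ξ : κ → ℂ, (∀ P ∈ 𝒥, fderiv ℂ (fun v => eval v P) w (Sum.elim ξ 0) = 0) →
    ∃ e, fderiv ℂ ψ (0, w ∘ Sum.inr) (e, 0) = ξ) →
  Nonempty (Out Z Γ w)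

section mf

variable {ι : Type} [Fintype ι] (p : ι → ℤ)

/-- the index set of the coordinates on the space of differentials -/
abbrev Kp : Type := Fin (finrank ℂ (MM p p 3))

/-- the coordinates on the space of differentials -/
def co : MM p p 3 ≃ₗ[ℂ] (Kp p → ℂ) := (Module.finBasis ℂ (MM p p 3)).equivFun

variable {p}

/-- the differential on maps of degree zero from `d` to `d'` -/
def dl (d d' : MM p p 3) : MM p p 0 →ₗ[ℂ] MM p p 3 where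
  toFun g := ⟨d'.1 * g.1 - g.1 * d.1,
    sub_mem (MM_mul (add_zero 3) d'.2 g.2) (MM_mul (zero_add 3) g.2 d.2)⟩
  map_add' g h := Subtype.ext (by
    simp only [Submodule.coe_add, Matrix.mul_add, Matrix.add_mul]
    abel)
  map_smul' c g := Subtype.ext (by
    simp only [Submodule.coe_smul, RingHom.id_apply, Matrix.mul_smul, Matrix.smul_mul, smul_sub])

theorem dl_val (d d' : MM p p 3) (g : MM p p 0) : (dl d d' g).1 = d'.1 * g.1 - g.1 * d.1 := rfl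

/-- its rank -/
def rk (d d' : MM p p 3) : ℕ := finrank ℂ (LinearMap.range (dl d d'))

end mf

variable {W : S6} (C : Cf W)

/-- the differential with the coordinates `w` -/
def dw (w : Kp C.p ⊕ Fin C.ν → ℂ) : MM C.p C.p 3 := (co C.p).symm (w ∘ Sum.inl)

/-- the graph of the family -/
def G : Set (Kp C.p ⊕ Fin C.ν → ℂ) := {w | w ∘ Sum.inr ∈ C.Z ∧ (dw C w).1 ∈ C.O (w ∘ Sum.inr)}

/-- the locus of small rank -/
def T1 : Set (Kp C.p ⊕ Fin C.ν → ℂ) := {w | w ∘ Sum.inr ∈ C.Z ∧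
  ∀ d : MM C.p C.p 3, d.1 ∈ C.O (w ∘ Sum.inr) → rk d (dw C w) ≤ rk d d}

/-- the bad part of it -/
def T2 : Set (Kp C.p ⊕ Fin C.ν → ℂ) := T1 C \ G C

/-- **MFI**: both loci are relatively algebraic. -/
def MFI : Prop := ∀ (W : S6) (C : Cf W), G C ⊆ T1 C ∧ Rel (T1 C) ∧ Rel (T2 C)

/-- **TAN**: vertical tangent vectors of the locus of small rank are tangent to the orbit. -/
def TAN : Prop := ∀ (W : S6) (C : Cf W), ∀ w ∈ G C, ∀ v : MM C.p C.p 3,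
  v ∉ LinearMap.range (dl (dw C w) (dw C w)) → ∃ h : (Kp C.p ⊕ Fin C.ν → ℂ) → ℂ,
    AnalyticAt ℂ h w ∧ (∀ᶠ w' in 𝓝 w, w' ∈ T1 C → h w' = 0) ∧
    fderiv ℂ h w (Sum.elim (co C.p v) 0) ≠ 0

/-- **ORB**: a local parametrisation of the graph. -/
def ORB : Prop := ∀ (W : S6) (C : Cf W), ∀ w ∈ G C,
  ∃ ψ : MM C.p C.p 0 × (Fin C.ν → ℂ) → Kp C.p → ℂ, AnalyticAt ℂ ψ (0, w ∘ Sum.inr) ∧
    ψ (0, w ∘ Sum.inr) = w ∘ Sum.inl ∧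
    (∀ᶠ q in 𝓝 (0, w ∘ Sum.inr), q.2 ∈ C.Z → Sum.elim (ψ q) q.2 ∈ G C) ∧
    ∀ g, ∃ e, fderiv ℂ ψ (0, w ∘ Sum.inr) (e, 0) = co C.p (dl (dw C w) (dw C w) g)

/-- The result, with smoothness over `ℂ`. -/
def StEt' : Prop := ∀ (W : S6) (C : Cf W), ∀ w ∈ G C, ∃ (T : Cht C) (φ : T.D →ₐ[ℂ] ℂ),
  Algebra.Smooth ℂ T.D ∧ T.π φ = w ∘ Sum.inr ∧ val φ T.d = (dw C w).1

end Vale.Agent.P287T.Et
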