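import Vale.Agent.P287T.Et.Sm
import Vale.Agent.P287T.Et.St

/-!
# Smooth algebraic charts of a surface of matrix factorizations: assembly
-/

open MvPolynomial Module Filter Topology

noncomputable section

namespace Vale.Agent.P287T.Et

open Vale.Agent.P287T.Cy Vale.Agent.P287T.Df Vale.Agent.P287T.Au

variable {W : S6} {C : Cf W} {a : Kp C.p ⊕ Fin C.ν → ℂ}

theorem cf_ne (C : Cf W) {z : Fin C.ν → ℂ} (h : z ∈ C.Z) : z ≠ 0 := fun e =>
  (C.pv.sub h ()).elim fun j k => k.2 (congrFun e j)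

theorem cf_smul (C : Cf W) {z : Fin C.ν → ℂ} (h : z ∈ C.Z) {t : ℂ} (ht : t ≠ 0) : t • z ∈ C.Z :=
  C.pv.inv (fun _ => t) (Pi.isUnit_iff.2 fun _ => isUnit_iff_ne_zero.2 ht) z h

theorem val_ext {D : Type} [CommRing D] [Algebra ℂ D]
    (sep : ∀ s, (∀ φ : D →ₐ[ℂ] ℂ, φ s = 0) → s = 0) {ι κ : Type}
    {g g' : Matrix κ ι (MvPolynomial (Fin 6) D)} (h : ∀ φ : D →ₐ[ℂ] ℂ, val φ g = val φ g') :
    g = g' := by
  ext i l m
  refine sub_eq_zero.1 (sep _ fun φ => ?_)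
  have := congrArg (coeff m) (congrFun₂ (h φ) i l)
  simp only [val, Matrix.map_apply, coeff_map, RingHom.coe_coe] at this
  rw [map_sub, this, sub_self]

theorem map_map_pt {D : Type} [CommRing D] [Algebra ℂ D] (φ : D →ₐ[ℂ] ℂ) (f : S6) :
    map (φ : D →+* ℂ) (map (algebraMap ℂ D) f) = f := by
  rw [MvPolynomial.map_map, AlgHom.comp_algebraMap, Algebra.algebraMap_self, MvPolynomial.map_id]

namespace Ch

variable (T : Ch C.I (G C) a)

/-- the universal differential -/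
def d : Matrix C.ι C.ι (MvPolynomial (Fin 6) T.D) := .of fun i l =>
  ∑ k, MvPolynomial.C (T.x (.inl k)) *
    map (algebraMap ℂ T.D) ((Module.finBasis ℂ (MM C.p C.p 3) k).1 i l)

theorem val_d (φ : T.D →ₐ[ℂ] ℂ) : val φ T.d = (dw C fun i => φ (T.x i)).1 := by
  ext1 i l
  rw [dw, co, Basis.equivFun_symm_apply, Submodule.coe_sum, Matrix.sum_apply, val,
    Matrix.map_apply, d, Matrix.of_apply, map_sum]
  refine Finset.sum_congr rfl fun k _ => ?_
  rw [map_mul, map_C, map_map_pt, Submodule.coe_smul, Matrix.smul_apply, smul_eq_C_mul]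
  rfl

theorem pi_eq (φ : T.D →ₐ[ℂ] ℂ) :
    (fun i => φ (algebraMap C.B T.D (C.y i))) = (fun i => φ (T.x i)) ∘ .inr :=
  funext fun i => congrArg φ (T.xy i).symm

/-- the chart of the family -/
def cht : Cht C where
  D := T.D
  sm := T.sm
  𝒟 := T.𝒟
  dy i := (congrArg (· ∈ T.𝒟 1) (T.xy i)).mp (T.dx (.inr i))
  d := T.d
  dg i l m := by
    have e : coeff m (T.d i l) =
        ∑ k, coeff m ((Module.finBasis ℂ (MM C.p C.p 3) k).1 i l) • T.x (.inl k) := by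
      rw [d, Matrix.of_apply, coeff_sum]
      refine Finset.sum_congr rfl fun k _ => ?_
      rw [coeff_C_mul, coeff_map, Algebra.smul_def, mul_comm]
    rw [e]
    refine ⟨Submodule.sum_mem _ fun k _ => Submodule.smul_mem _ _ (T.dx (.inl k)), fun h => ?_⟩
    obtain ⟨k, -, hk⟩ := Finset.exists_ne_zero_of_sum_ne_zero h
    exact P287Z.O.L.hg_iff.1 ((Module.finBasis ℂ (MM C.p C.p 3) k).2 i l) m
      (mem_support_iff.2 (left_ne_zero_of_smul hk))
  sq := val_ext T.sep fun φ => by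
    have h := ((C.orb _ (T.pt φ).1).mf _ (T.pt φ).2).sq
    rw [← T.val_d] at h
    rw [val, Matrix.map_mul]
    refine h.trans (Matrix.ext fun i l => ?_)
    rw [val, Matrix.map_apply, Matrix.smul_apply, Matrix.smul_apply, smul_eq_mul, smul_eq_mul,
      map_mul, map_map_pt, Matrix.one_apply, Matrix.one_apply, apply_ite (MvPolynomial.map _),
      map_one, map_zero]
  pt φ := T.pi_eq φ ▸ (T.pt φ).1
  fib φ := by
    rw [T.pi_eq, T.val_d]
    exact (T.pt φ).2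

theorem cht_π (φ : T.D →ₐ[ℂ] ℂ) : T.cht.π φ = (fun i => φ (T.x i)) ∘ .inr := T.pi_eq φ

theorem cht_d (φ : T.D →ₐ[ℂ] ℂ) : val φ T.cht.d = (dw C fun i => φ (T.x i)).1 := T.val_d φ

end Ch

theorem elim_mem_G {z : Fin C.ν → ℂ} (hz : z ∈ C.Z) {d : MM C.p C.p 3} (hd : d.1 ∈ C.O z) :
    Sum.elim (co C.p d) z ∈ G C :=
  ⟨hz, by rw [dw, Sum.elim_comp_inl, LinearEquiv.symm_apply_apply]; exact hd⟩

theorem exists_ch (ha : a ∈ G C) (s : G C ⊆ T1 C)
    (t1 : ∀ w, w ∘ .inr ≠ 0 → (∀ P, Van (T1 C) P → eval w P = 0) → w ∈ T1 C)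
    (t2 : (∀ P, Van (T2 C) P → eval a P = 0) → a ∈ T2 C)
    (h1 : ∀ w, Zt (G C) a w → Crv (G C) a w)
    (h2 : ∀ v, Zt C.Z (a ∘ .inr) v → ∃ w, Crv (G C) a w ∧ w ∘ .inr = v) :
    Nonempty (Ch C.I (G C) a) := by
  refine chart (fun _ => C.mem_I) (fun z hz t ht => cf_smul C hz ht) (fun b hb => hb.1)
    (fun D y h t ht => ⟨cf_smul C h.1 ht, ?_⟩) ?_ h1 h2
  · exact (C.smul y h.1 t ht).ge h.2
  · obtain ⟨P, k1, k2⟩ : ∃ P, Van (T2 C) P ∧ eval a P ≠ 0 := by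
      by_contra! k
      exact (t2 k).2 ha
    obtain ⟨i, hi⟩ := Function.ne_iff.1 (cf_ne C ha.1)
    refine ⟨P * X (.inr i), by rw [map_mul, eval_X]; exact mul_ne_zero k2 hi, fun b b1 b2 => ?_⟩
    rw [map_mul, eval_X] at b2
    by_contra k
    exact left_ne_zero_of_mul b2 (k1 b ⟨t1 b (fun e => right_ne_zero_of_mul b2 (congrFun e i))
      fun Q hQ => b1 Q fun c hc => hQ c (s hc), k⟩)

/-- every tangent vector of the Zariski closure of the graph is the velocity of a curve in it -/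
def H1 : Prop := ∀ (W : S6) (C : Cf W), ∀ a ∈ G C, ∀ w, Zt (G C) a w → Crv (G C) a w

/-- tangent vectors of the cone lift to curves in the graph -/
def H2 : Prop := ∀ (W : S6) (C : Cf W), ∀ a ∈ G C, ∀ v, Zt C.Z (a ∘ .inr) v →
  ∃ w, Crv (G C) a w ∧ w ∘ .inr = v

theorem ch_of (hR : RC) (hM : MFI) (h1 : H1) (h2 : H2) (ha : a ∈ G C) :
    Nonempty (Ch C.I (G C) a) :=
  have ⟨s, r1, r2⟩ := hM W C
  exists_ch ha s (fun w k b => (hR _ _ _ r1 w k).1 fun P c => b P c.2)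
    (fun b => (hR _ _ _ r2 a (cf_ne C ha.1)).1 fun P c => b P c.2) (h1 W C a ha) (h2 W C a ha)

theorem stEt_of_ch (h : ∀ (W : S6) (C : Cf W), ∀ a ∈ G C, Nonempty (Ch C.I (G C) a)) : StEt := by
  intro W C z hz
  obtain ⟨d, hd⟩ := (C.orb z hz).ne
  have ha := elim_mem_G hz (d := ⟨d, ((C.orb z hz).mf d hd).deg⟩) hd
  obtain ⟨T⟩ := h W C _ ha
  obtain ⟨φ, hφ⟩ := T.ex _ ha T.ne
  exact ⟨T.cht, φ, (T.cht_π φ).trans (congrArg (· ∘ Sum.inr) hφ)⟩

theorem stEt_of (hR : RC) (hM : MFI) (h1 : H1) (h2 : H2) : StEt :=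
  stEt_of_ch fun _ _ _ ha => ch_of hR hM h1 h2 ha

end Vale.Agent.P287T.Et
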