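import Mathlib.LinearAlgebra.Matrix.Adjugate
import Mathlib.LinearAlgebra.Matrix.NonsingularInverse
import Mathlib.LinearAlgebra.Matrix.ToLinearEquiv
import Mathlib.LinearAlgebra.Dual.Lemmas
import Mathlib.LinearAlgebra.FiniteDimensional.Lemmas
import Mathlib.RingTheory.FiniteType
import Mathlib.Data.Complex.Basic

/-!
# Minors in frames, the rule of Cramer, finitely many equations
-/

open Module Matrix

noncomputable section

namespace Vale.Agent.P287T.Et

section lin

variable {U U' : Type} [AddCommGroup U] [Module ℂ U] [AddCommGroup U'] [Module ℂ U'] {r : ℕ}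
  (δ : U →ₗ[ℂ] U') (α : Fin r → U) (β : Fin r → U' →ₗ[ℂ] ℂ)

/-- the matrix of `δ` in the frames `α`, `β` -/
def fm : Matrix (Fin r) (Fin r) ℂ := Matrix.of fun i j => β i (δ (α j))

/-- the element of the kernel given by the rule of Cramer -/
def cr (c : U) : U :=
  (fm δ α β).det • c - ∑ j, (adjugate (fm δ α β) *ᵥ fun i => β i (δ c)) j • α j

theorem fm_mulVec (t : Fin r → ℂ) :
    fm δ α β *ᵥ t = fun i => β i (δ (∑ j, t j • α j)) := funext fun i => by
  simp only [fm, mulVec, dotProduct, of_apply, map_sum, map_smul, smul_eq_mul]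
  exact Finset.sum_congr rfl fun j _ => mul_comm _ _

variable {δ α β}

theorem li_of_det (h : (fm δ α β).det ≠ 0) : LinearIndependent ℂ fun j => δ (α j) := by
  rw [Fintype.linearIndependent_iff]
  intro t ht
  have h1 : fm δ α β *ᵥ t = 0 := by
    rw [fm_mulVec]
    funext i
    rw [map_sum]
    simp only [map_smul]
    rw [ht, map_zero, Pi.zero_apply]
  exact congrFun (eq_zero_of_mulVec_eq_zero h h1)

theorem le_of_det [Module.Finite ℂ U] (h : (fm δ α β).det ≠ 0) :
    r ≤ finrank ℂ (LinearMap.range δ) := by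
  have h1 : LinearIndependent ℂ fun j => (⟨δ (α j), α j, rfl⟩ : LinearMap.range δ) :=
    LinearIndependent.of_comp (LinearMap.range δ).subtype (li_of_det h)
  simpa using h1.fintype_card_le_finrank

theorem exists_frame [Module.Finite ℂ U] (h : r ≤ finrank ℂ (LinearMap.range δ)) :
    ∃ (α : Fin r → U) (β : Fin r → U' →ₗ[ℂ] ℂ), fm δ α β = 1 := by
  let b := finBasis ℂ (LinearMap.range δ)
  choose α hα using fun j : Fin r => (b (Fin.castLE h j)).2
  choose β hβ using fun i : Fin r => LinearMap.exists_extend (b.coord (Fin.castLE h i))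
  refine ⟨α, β, Matrix.ext fun i j => ?_⟩
  have h1 : β i (δ (α j)) = b.coord (Fin.castLE h i) (b (Fin.castLE h j)) := by
    rw [hα, ← hβ i]
    rfl
  rw [fm, of_apply, h1, Basis.coord_apply, Basis.repr_self, Finsupp.single_apply, one_apply]
  simp only [Fin.castLE_inj, eq_comm]

theorem rank_le_iff [Module.Finite ℂ U] : finrank ℂ (LinearMap.range δ) ≤ r ↔
    ∀ (α : Fin (r + 1) → U) (β : Fin (r + 1) → U' →ₗ[ℂ] ℂ), (fm δ α β).det = 0 := by
  refine ⟨fun h α β => by_contra fun k => ?_, fun h => by_contra fun k => ?_⟩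
  · have := le_of_det k
    omega
  · obtain ⟨α, β, e⟩ := exists_frame (δ := δ) (r := r + 1) (by omega)
    have := h α β
    rw [e, det_one] at this
    exact one_ne_zero this

theorem cr_ker [Module.Finite ℂ U] (h : finrank ℂ (LinearMap.range δ) ≤ r)
    (hd : (fm δ α β).det ≠ 0) (c : U) : δ (cr δ α β c) = 0 := by
  have h1 : LinearIndependent ℂ fun j => (⟨δ (α j), α j, rfl⟩ : LinearMap.range δ) :=
    LinearIndependent.of_comp (LinearMap.range δ).subtype (li_of_det hd)
  have h2 := h1.span_eq_top_of_card_eq_finrank' (by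
    rw [Fintype.card_fin]
    exact le_antisymm (le_of_det hd) h)
  have h3 : (⟨δ c, c, rfl⟩ : LinearMap.range δ) ∈ Submodule.span ℂ
      (Set.range fun j => (⟨δ (α j), α j, rfl⟩ : LinearMap.range δ)) := h2 ▸ Submodule.mem_top
  obtain ⟨t, ht⟩ := (Submodule.mem_span_range_iff_exists_fun ℂ).1 h3
  have h4 : δ (∑ j, t j • α j) = δ c := by
    have := congrArg Subtype.val ht
    simpa using this
  have h5 : (fun i => β i (δ c)) = fm δ α β *ᵥ t := by rw [fm_mulVec, h4]
  rw [cr, h5, mulVec_mulVec, adjugate_mul, smul_mulVec, one_mulVec, map_sub, map_smul, ← h4,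
    ← map_smul, Finset.smul_sum]
  simp only [Pi.smul_apply, smul_eq_mul, mul_smul, sub_self]

theorem cr_of_ker {c : U} (h : δ c = 0) : cr δ α β c = (fm δ α β).det • c := by
  have h1 : (fun i => β i (δ c)) = 0 := funext fun i => by rw [h, map_zero, Pi.zero_apply]
  rw [cr, h1, mulVec_zero]
  simp

end lin

/-- Finitely many equations suffice in a finitely generated algebra of functions. -/
theorem fin_eqs {T : Type} {S : Set (T → ℂ)} (hS : S.Finite) {Q : Set (T → ℂ)}
    (hQ : ∀ f ∈ Q, f ∈ Algebra.adjoin ℂ S) : ∃ (ι : Type) (_ : Finite ι) (f : ι → T → ℂ),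
      (∀ i, f i ∈ Q) ∧ ∀ t, (∀ g ∈ Q, g t = 0) ↔ ∀ i, f i t = 0 := by
  have h1 : Algebra.FiniteType ℂ (Algebra.adjoin ℂ S) :=
    (Subalgebra.fg_iff_finiteType _).1 (Subalgebra.fg_def.2 ⟨S, hS, rfl⟩)
  have h2 := Algebra.FiniteType.isNoetherianRing ℂ (Algebra.adjoin ℂ S)
  obtain ⟨s, hs, e⟩ := (Submodule.fg_span_iff_fg_span_finset_subset
    (R := Algebra.adjoin ℂ S) {x : Algebra.adjoin ℂ S | x.1 ∈ Q}).1 (IsNoetherian.noetherian _)
  refine ⟨s, inferInstance, fun i => i.1.1, fun i => hs i.2, fun t =>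
    ⟨fun k i => k _ (hs i.2), fun k g hg => ?_⟩⟩
  have h3 : (⟨g, hQ g hg⟩ : Algebra.adjoin ℂ S) ∈ Submodule.span (Algebra.adjoin ℂ S)
      (s : Set (Algebra.adjoin ℂ S)) := e ▸ Submodule.subset_span hg
  have h4 : ∀ x ∈ Submodule.span (Algebra.adjoin ℂ S) (s : Set (Algebra.adjoin ℂ S)),
      x.1 t = 0 := by
    intro x hx
    induction hx using Submodule.span_induction with
    | mem x hx => exact k ⟨x, hx⟩
    | zero => rfl
    | add x y _ _ a b => exact (congrArg₂ (· + ·) a b).trans (add_zero 0)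
    | smul c x _ a => exact (congrArg (c.1 t * ·) a).trans (mul_zero _)
  exact h4 _ h3

end Vale.Agent.P287T.Et
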