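import Vale.Agent.P287Q.Pv.Chow
import Vale.Agent.P287Q.Cub.Defs

/-!
# The relative theorem of Chow: definitions and statements
-/

set_option linter.unusedSectionVars false

open Set Filter Topology Function MvPolynomial

noncomputable section

namespace Vale.Agent.P287T.Et

open Vale.Agent.P287Q Vale.Agent.P287Q.Cub

variable {K L N : Type} [Fintype K] [Fintype L] [Fintype N]

variable (K) in
/-- The functions of `(D, y)` which are polynomials in `D` with coefficients analytic at `z`. -/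
def PA (z : N → ℂ) : Subalgebra ℂ ((K ⊕ N → ℂ) → ℂ) :=
  Algebra.adjoin ℂ ({F | ∃ k, F = fun w => w (.inl k)} ∪
    {F | ∃ a : (N → ℂ) → ℂ, AnalyticAt ℂ a z ∧ F = fun w => a (w ∘ .inr)})

/-- `T` lies over the cone `Z`, is a cone in the variables `N` and is, locally over `Z`, cut out by
finitely many functions polynomial in the variables `K`. -/
structure RA (Z : Set (N → ℂ)) (T : Set (K ⊕ N → ℂ)) : Prop where
  sub : ∀ w ∈ T, w ∘ .inr ∈ Z
  smul : ∀ D y, Sum.elim D y ∈ T → ∀ c : ℂ, c ≠ 0 → Sum.elim D (c • y) ∈ T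
  loc : ∀ z ∈ Z, ∃ (ι : Type) (_ : Finite ι) (f : ι → (K ⊕ N → ℂ) → ℂ), (∀ i, f i ∈ PA K z) ∧
    ∀ᶠ y in 𝓝[Z] z, ∀ D, Sum.elim D y ∈ T ↔ ∀ i, f i (Sum.elim D y) = 0

/-- The polynomials, homogeneous in the variables `N`, which vanish on `T`. -/
def JH (T : Set (K ⊕ N → ℂ)) : Set (MvPolynomial (K ⊕ N) ℂ) :=
  {P | (∃ m : ℕ, P.IsWeightedHomogeneous (Sum.elim 0 1 : K ⊕ N → ℕ) m) ∧ ∀ x ∈ T, eval x P = 0}

/-- **Relative Chow**, with the Jacobian clause. -/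
def StRc : Prop := ∀ (K N : Type) [Fintype K] [Fintype N] (Z : Set (N → ℂ)) (n : ℕ)
  (T : Set (K ⊕ N → ℂ)), PV (π₀ N) Z n → RA Z T → ∀ w : K ⊕ N → ℂ,
    (w ∘ .inr ≠ 0 → (∀ P ∈ JH T, eval w P = 0) → w ∈ T) ∧
    (w ∈ T → ∀ h : (K ⊕ N → ℂ) → ℂ, AnalyticAt ℂ h w → (∀ᶠ x in 𝓝 w, x ∈ T → h x = 0) →
      ∀ ξ, (∀ P ∈ JH T, fderiv ℂ (fun x => eval x P) w ξ = 0) → fderiv ℂ h w ξ = 0)

namespace PA

variable {z : N → ℂ}

theorem var (k : K) : (fun w => w (.inl k)) ∈ PA K z := Algebra.subset_adjoin (.inl ⟨k, rfl⟩)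

theorem an {a : (N → ℂ) → ℂ} (h : AnalyticAt ℂ a z) : (fun w => a (w ∘ .inr)) ∈ PA K z :=
  Algebra.subset_adjoin (.inr ⟨a, h, rfl⟩)

theorem const (c : ℂ) : (fun _ => c) ∈ PA K z := (PA K z).algebraMap_mem c

theorem lin (l : (K → ℂ) →ₗ[ℂ] ℂ) : (fun w => l (w ∘ .inl)) ∈ PA K z := by
  classical
  have : (fun w : K ⊕ N → ℂ => l (w ∘ .inl)) =
      ∑ k, l (Pi.single k 1) • fun w : K ⊕ N → ℂ => w (.inl k) := funext fun w => by
    rw [LinearMap.pi_apply_eq_sum_univ, Finset.sum_apply]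
    refine Finset.sum_congr rfl fun k _ => ?_
    rw [Pi.smul_apply, smul_eq_mul, smul_eq_mul, mul_comm]
    exact congrArg (l · * _) (funext fun j => by simp [Pi.single_apply, eq_comm])
  rw [this]
  exact Subalgebra.sum_mem _ fun k _ => Subalgebra.smul_mem _ (var k) _

theorem det {ι : Type} [Fintype ι] [DecidableEq ι] {M : (K ⊕ N → ℂ) → Matrix ι ι ℂ}
    (h : ∀ i j, (fun w => M w i j) ∈ PA K z) : (fun w => (M w).det) ∈ PA K z := by
  have : (fun w => (M w).det) = ∑ σ : Equiv.Perm ι, ((Equiv.Perm.sign σ : ℤ) : ℂ) •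
      ∏ i, fun w => M w (σ i) i := funext fun w => by
    simp [Matrix.det_apply']
  rw [this]
  exact Subalgebra.sum_mem _ fun σ _ => Subalgebra.smul_mem _
    (Subalgebra.prod_mem _ fun i _ => h _ _) _

theorem analyticAt {F : (K ⊕ N → ℂ) → ℂ} (h : F ∈ PA K z) (D : K → ℂ) :
    AnalyticAt ℂ F (Sum.elim D z) := by
  induction h using Algebra.adjoin_induction with
  | mem F h =>
    obtain ⟨k, rfl⟩ | ⟨a, ha, rfl⟩ := h
    · exact (ContinuousLinearMap.proj (R := ℂ) (φ := fun _ : K ⊕ N => ℂ) _).analyticAt _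
    · exact ha.comp_of_eq (analyticAt_pi_iff.2 fun j =>
        (ContinuousLinearMap.proj (R := ℂ) (φ := fun _ : K ⊕ N => ℂ) (.inr j)).analyticAt _) rfl
  | algebraMap c => exact analyticAt_const
  | add F G _ _ a b => exact a.add b
  | mul F G _ _ a b => exact a.mul b

/-- Expansion in a part of the variables. -/
theorem expand {F : ((K ⊕ L) ⊕ N → ℂ) → ℂ} (h : F ∈ PA (K ⊕ L) z) :
    ∃ Φ : MvPolynomial L (PA K z), ∀ D c y, F (Sum.elim (Sum.elim D c) y) =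
      eval c (map ((Pi.evalRingHom _ (Sum.elim D y)).comp (PA K z).val.toRingHom) Φ) := by
  induction h using Algebra.adjoin_induction with
  | mem F h =>
    obtain ⟨k | l, rfl⟩ | ⟨a, ha, rfl⟩ := h
    · exact ⟨C ⟨_, var k⟩, fun D c y => by simp⟩
    · exact ⟨X l, fun D c y => by simp⟩
    · exact ⟨C ⟨_, an ha⟩, fun D c y => by simp⟩
  | algebraMap c => exact ⟨C ⟨_, const c⟩, fun D c y => by simp⟩
  | add F G _ _ a b =>
    obtain ⟨Φ, a⟩ := a
    obtain ⟨Ψ, b⟩ := b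
    exact ⟨Φ + Ψ, fun D c y => by rw [map_add, map_add, ← a, ← b, Pi.add_apply]⟩
  | mul F G _ _ a b =>
    obtain ⟨Φ, a⟩ := a
    obtain ⟨Ψ, b⟩ := b
    exact ⟨Φ * Ψ, fun D c y => by rw [map_mul, map_mul, ← a, ← b, Pi.mul_apply]⟩

/-- Vanishing for all values of auxiliary variables is a finite system of equations. -/
theorem all {F : ((K ⊕ L) ⊕ N → ℂ) → ℂ} (h : F ∈ PA (K ⊕ L) z) :
    ∃ (ι : Type) (_ : Finite ι) (f : ι → (K ⊕ N → ℂ) → ℂ), (∀ i, f i ∈ PA K z) ∧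
      ∀ D y, (∀ c, F (Sum.elim (Sum.elim D c) y) = 0) ↔ ∀ i, f i (Sum.elim D y) = 0 := by
  obtain ⟨Φ, e⟩ := expand h
  refine ⟨Φ.support, inferInstance, fun m => (Φ.coeff m).1, fun m => (Φ.coeff m).2, fun D y =>
    ⟨fun k m => ?_, fun k c => ?_⟩⟩
  · have := MvPolynomial.funext (q := 0) fun c => ((e D c y).symm.trans (k c)).trans (map_zero _).symm
    exact (coeff_map _ _ _).symm.trans (congrArg (coeff m.1) this)
  · rw [e, show map _ Φ = 0 from MvPolynomial.ext _ _ fun m => ?_, map_zero]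
    rw [coeff_map]
    by_cases a : m ∈ Φ.support
    · exact k ⟨m, a⟩
    · rw [notMem_support_iff.1 a, map_zero, coeff_zero]

end PA

namespace RA

variable {Z : Set (N → ℂ)} {T T' : Set (K ⊕ N → ℂ)}

theorem inter (h : RA Z T) (h' : RA Z T') : RA Z (T ∩ T') := by
  refine ⟨fun w a => h.sub w a.1, fun D y a c b => ⟨h.smul D y a.1 c b, h'.smul D y a.2 c b⟩,
    fun z a => ?_⟩
  obtain ⟨ι, _, f, f1, f2⟩ := h.loc z a
  obtain ⟨κ, _, g, g1, g2⟩ := h'.loc z a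
  refine ⟨ι ⊕ κ, inferInstance, Sum.elim f g, Sum.forall.2 ⟨f1, g1⟩, ?_⟩
  filter_upwards [f2, g2] with y b c D
  exact (and_congr (b D) (c D)).trans (Sum.forall (p := fun i => Sum.elim f g i _ = 0)).symm

theorem union (h : RA Z T) (h' : RA Z T') : RA Z (T ∪ T') := by
  refine ⟨fun w a => a.elim (h.sub w) (h'.sub w),
    fun D y a c b => a.imp (h.smul D y · c b) (h'.smul D y · c b), fun z a => ?_⟩
  obtain ⟨ι, _, f, f1, f2⟩ := h.loc z a
  obtain ⟨κ, _, g, g1, g2⟩ := h'.loc z a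
  refine ⟨ι × κ, inferInstance, fun p => f p.1 * g p.2, fun p => mul_mem (f1 _) (g1 _), ?_⟩
  filter_upwards [f2, g2] with y b c D
  refine (or_congr (b D) (c D)).trans ⟨fun k p => mul_eq_zero.2 (k.imp (· p.1) (· p.2)), fun k => ?_⟩
  exact or_iff_not_imp_left.2 fun d j => (not_forall.1 d).elim fun i e =>
    (mul_eq_zero.1 (k (i, j))).resolve_left e

end RA

end Vale.Agent.P287T.Et
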