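import Vale.Agent.P287T.Et.St
import Vale.Agent.P287T.Et.Lin
import Vale.Agent.P287T.Et.RcDefs
import Vale.Agent.P287T.Dt.Reg
import Vale.Agent.P287T.Df.Tp

/-!
# The loci of small rank are relatively algebraic
-/

set_option linter.unusedSectionVars false

open MvPolynomial Module Filter Topology

noncomputable section

namespace Vale.Agent.P287T.Et

open Vale.Agent.P287T.Cy Vale.Agent.P287T.Df Vale.Agent.P287T.Au Vale.Agent.P287T.Dt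

theorem rank_mono {U U' : Type} [AddCommGroup U] [Module ℂ U] [AddCommGroup U'] [Module ℂ U']
    [Module.Finite ℂ U] {δ δ' : U →ₗ[ℂ] U'} (φ : U → U) (ψ : U' →ₗ[ℂ] U')
    (hψ : Function.Injective ψ) (h : ∀ x, δ (φ x) = ψ (δ' x)) :
    finrank ℂ (LinearMap.range δ') ≤ finrank ℂ (LinearMap.range δ) := by
  rw [(Submodule.equivMapOfInjective ψ hψ (LinearMap.range δ')).finrank_eq]
  refine Submodule.finrank_mono ?_
  rintro _ ⟨_, ⟨x, rfl⟩, rfl⟩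
  exact ⟨φ x, h x⟩

section mf

variable {ι : Type} [Fintype ι] [DecidableEq ι] {p : ι → ℤ} {d d' x : MM p p 3}
  {g g' : Matrix ι ι S6}

theorem rk_left_le (hg : g ∈ MM p p 0) (h1 : g * g' = 1) (h : g * d.1 = d'.1 * g) :
    rk d' x ≤ rk d x := by
  refine rank_mono (fun a => mulB p p p (add_zero 0) a ⟨g, hg⟩)
    ((mulB p p p (add_zero 3)).flip ⟨g, hg⟩) (fun a b e => Subtype.ext ?_) fun a => Subtype.ext ?_
  · have e1 : a.1 * g = b.1 * g := congrArg Subtype.val e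
    rw [← Matrix.mul_one a.1, ← h1, ← Matrix.mul_assoc, e1, Matrix.mul_assoc, h1, Matrix.mul_one]
  · change x.1 * (a.1 * g) - a.1 * g * d.1 = (x.1 * a.1 - a.1 * d'.1) * g
    rw [Matrix.sub_mul, Matrix.mul_assoc a.1, h, Matrix.mul_assoc, Matrix.mul_assoc]

theorem rk_right_le (hg : g ∈ MM p p 0) (h1 : g' * g = 1) (h : g * d.1 = d'.1 * g) :
    rk x d ≤ rk x d' := by
  refine rank_mono (fun a => mulB p p p (add_zero 0) ⟨g, hg⟩ a)
    (mulB p p p (zero_add 3) ⟨g, hg⟩) (fun a b e => Subtype.ext ?_) fun a => Subtype.ext ?_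
  · have e1 : g * a.1 = g * b.1 := congrArg Subtype.val e
    rw [← Matrix.one_mul a.1, ← h1, Matrix.mul_assoc, e1, ← Matrix.mul_assoc, h1, Matrix.one_mul]
  · change d'.1 * (g * a.1) - g * a.1 * x.1 = g * (d.1 * a.1 - a.1 * x.1)
    rw [Matrix.mul_sub, ← Matrix.mul_assoc, ← h, Matrix.mul_assoc, Matrix.mul_assoc]

theorem conj_symm {a b : Matrix ι ι S6} (h1 : g * g' = 1) (h2 : g' * g = 1) (h : g * a = b * g) :
    g' * b = a * g' := by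
  calc g' * b = g' * (b * g) * g' := by
        rw [Matrix.mul_assoc, Matrix.mul_assoc, h1, Matrix.mul_one]
    _ = a * g' := by rw [← h, ← Matrix.mul_assoc, h2, Matrix.one_mul]

variable {W : S6} {O O' : Set (Matrix ι ι S6)}

theorem rk_left (h : Orb W p O) (hd : d.1 ∈ O) (hd' : d'.1 ∈ O) : rk d x = rk d' x := by
  obtain ⟨g, hg, g', hg', h1, h2, h3⟩ := (h.conj _ hd _).1 hd'
  exact le_antisymm (rk_left_le hg' h2 (conj_symm h1 h2 h3)) (rk_left_le hg h1 h3)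

theorem rk_right (h : Orb W p O) (hd : d.1 ∈ O) (hd' : d'.1 ∈ O) : rk x d = rk x d' := by
  obtain ⟨g, hg, g', hg', h1, h2, h3⟩ := (h.conj _ hd _).1 hd'
  exact le_antisymm (rk_right_le hg h2 h3) (rk_right_le hg' h1 (conj_symm h1 h2 h3))

theorem rk_eq_BB (d d' : MM p p 3) : rk d d' = finrank ℂ (BB p d.1 p d'.1 3) := by
  let ψ : Matrix ι ι S6 →ₗ[ℂ] Matrix ι ι S6 :=
    { toFun := fun a => a * eps p
      map_add' := fun _ _ => Matrix.add_mul _ _ _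
      map_smul' := fun _ _ => Matrix.smul_mul _ _ _ }
  have h1 : Function.Injective (ψ ∘ₗ (MM p p 3).subtype) := fun a b e => Subtype.ext (by
    have e1 : a.1 * eps p = b.1 * eps p := e
    rw [← Matrix.mul_one a.1, ← eps_sq p, ← Matrix.mul_assoc, e1, Matrix.mul_assoc, eps_sq,
      Matrix.mul_one])
  rw [rk, (Submodule.equivMapOfInjective _ h1 (LinearMap.range (dl d d'))).finrank_eq,
    BB_eq d.2, sub_self]
  refine congrArg (fun S : Submodule ℂ (Matrix ι ι S6) => finrank ℂ S) (le_antisymm ?_ ?_)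
  · rintro _ ⟨_, ⟨a, rfl⟩, rfl⟩
    exact ⟨a.1, a.2, rfl⟩
  · rintro _ ⟨a, ha, rfl⟩
    exact ⟨_, ⟨⟨a, ha⟩, rfl⟩, rfl⟩

theorem exists_lo (p : ι → ℤ) : ∃ (a : ℤ) (n : ℕ), Lo p p a ∧ 3 * (a + n) = 3 := by
  obtain ⟨n, hn⟩ := (Set.finite_range fun s : ι × ι => (p s.1 - p s.2).toNat).bddAbove
  refine ⟨-n, n + 1, fun l i => ?_, by push_cast; ring⟩
  have := hn ⟨(l, i), rfl⟩
  simp only at this
  omega

theorem rk_const (h : Orb W p O) (h' : Orb W p O') (hd : d.1 ∈ O) (hd' : d'.1 ∈ O') :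
    rk d d = rk d' d' := by
  obtain ⟨a, n, h1, h2⟩ := exists_lo p
  have e1 := rank_eq (n := n) (h.mf _ hd) (h.mf _ hd) h1
  have e2 := rank_eq (n := n) (h'.mf _ hd') (h'.mf _ hd') h1
  have e3 : Chi p p d.1 a n d.1 = Chi p p d'.1 a n d'.1 :=
    Finset.sum_congr rfl fun k _ => by rw [h.dim _ hd, h'.dim _ hd']
  rw [h2, ← rk_eq_BB] at e1 e2
  have e4 := add_left_cancel ((e1.trans e3).trans e2.symm)
  exact_mod_cast mul_left_cancel₀ (pow_ne_zero n (by norm_num)) e4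

theorem mem_iff (h : Orb W p O) (hd : d.1 ∈ O) :
    x.1 ∈ O ↔ ∃ g : MM p p 0, dl d x g = 0 ∧ coeff 0 g.1.det ≠ 0 := by
  rw [h.conj _ hd]
  refine ⟨fun ⟨g, hg, g', _, h1, h2, h3⟩ => ⟨⟨g, hg⟩, Subtype.ext ?_,
    (unit_iff hg).1 ⟨⟨g, g', h1, h2⟩, rfl⟩⟩, fun ⟨g, h1, h2⟩ => ?_⟩
  · exact sub_eq_zero.2 h3.symm
  · obtain ⟨g', h3, h4, h5⟩ := inv_mem g.2 ((unit_iff g.2).2 h2)
    exact ⟨g.1, g.2, g', h3, h5, h4, (sub_eq_zero.1 (congrArg Subtype.val h1)).symm⟩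

/-- The equations of the bad locus. -/
theorem notMem_iff (h : Orb W p O) (hd : d.1 ∈ O) {r : ℕ} (hr : rk d d = r) (hx : rk d x ≤ r) :
    x.1 ∉ O ↔ ∀ (α : Fin r → MM p p 0) (β : Fin r → MM p p 3 →ₗ[ℂ] ℂ) (c : MM p p 0),
      (fm (dl d x) α β).det * coeff 0 (cr (dl d x) α β c).1.det = 0 := by
  refine ⟨fun k α β c => by_contra fun e => k ((mem_iff h hd).2
    ⟨_, cr_ker hx (left_ne_zero_of_mul e) c, right_ne_zero_of_mul e⟩), fun k e => ?_⟩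
  obtain ⟨g, h1, h2⟩ := (mem_iff h hd).1 e
  obtain ⟨α, β, h3⟩ := exists_frame (δ := dl d x) (r := r) (hr.symm.trans (rk_right h hd e)).le
  have := k α β g
  rw [cr_of_ker h1, h3, Matrix.det_one, one_smul, one_mul] at this
  exact h2 this

variable {T : Type} {A : Subalgebra ℂ (T → ℂ)}

theorem fam_sum {α : Type} (s : Finset α) {M : α → T → Matrix ι ι S6} (h : ∀ i ∈ s, Fam A (M i)) :
    Fam A fun t => ∑ i ∈ s, M i t := fun i l m => by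
  simp only [Matrix.sum_apply, coeff_sum]
  exact fun_sum_mem _ fun k hk => h k hk i l m

theorem fam_lin {j : ℤ} {M : T → MM p p j} (h : Fam A fun t => (M t).1) (l : MM p p j →ₗ[ℂ] ℂ) :
    (fun t => l (M t)) ∈ A := by
  obtain ⟨l', e⟩ := LinearMap.exists_extend l
  rw [← e]
  exact h.lin (fun t => (M t).2) l'

theorem fam_co {M : T → Kp p → ℂ} (h : ∀ k, (fun t => M t k) ∈ A) :
    Fam A fun t => ((co p).symm (M t)).1 := by
  simp only [co, Basis.equivFun_symm_apply, Submodule.coe_sum, Submodule.coe_smul]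
  exact fam_sum _ fun k _ => Fam.smul (h k) (Fam.const _)

variable {a b : T → MM p p 3}

theorem fam_dl (ha : Fam A fun t => (a t).1) (hb : Fam A fun t => (b t).1) (c : MM p p 0) :
    Fam A fun t => (dl (a t) (b t) c).1 := (hb.mul (Fam.const _)).sub ((Fam.const _).mul ha)

theorem fm_mem (ha : Fam A fun t => (a t).1) (hb : Fam A fun t => (b t).1) {r : ℕ}
    (α : Fin r → MM p p 0) (β : Fin r → MM p p 3 →ₗ[ℂ] ℂ) (i j : Fin r) :
    (fun t => fm (dl (a t) (b t)) α β i j) ∈ A := fam_lin (fam_dl ha hb (α j)) (β i)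

theorem adjugate_mem {r : ℕ} {M : T → Matrix (Fin r) (Fin r) ℂ}
    (h : ∀ i j, (fun t => M t i j) ∈ A) (i j : Fin r) : (fun t => (M t).adjugate i j) ∈ A := by
  simp only [Matrix.adjugate_apply]
  refine det_mem fun k l => ?_
  simp only [Matrix.updateRow_apply]
  split_ifs
  · exact fun_const_mem _
  · exact h k l

theorem fam_cr (ha : Fam A fun t => (a t).1) (hb : Fam A fun t => (b t).1) {r : ℕ}
    (α : Fin r → MM p p 0) (β : Fin r → MM p p 3 →ₗ[ℂ] ℂ) (c : MM p p 0) :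
    Fam A fun t => (cr (dl (a t) (b t)) α β c).1 := by
  simp only [cr, Submodule.coe_sub, Submodule.coe_sum, Submodule.coe_smul]
  refine (Fam.smul (det_mem (fm_mem ha hb α β)) (Fam.const _)).sub
    (fam_sum _ fun j _ => Fam.smul ?_ (Fam.const _))
  simp only [Matrix.mulVec, dotProduct]
  exact fun_sum_mem _ fun i _ =>
    mul_mem (adjugate_mem (fm_mem ha hb α β) j i) (fam_lin (fam_dl ha hb c) (β i))

end mf

variable {W : S6} (C : Cf W)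

theorem dw_elim (D : Kp C.p → ℂ) (y : Fin C.ν → ℂ) :
    dw C (Sum.elim D y) = (co C.p).symm D := rfl

variable {C}

theorem mem_T1 {w : Kp C.p ⊕ Fin C.ν → ℂ} (hw : w ∘ Sum.inr ∈ C.Z) {d : MM C.p C.p 3}
    (hd : d.1 ∈ C.O (w ∘ Sum.inr)) : w ∈ T1 C ↔ rk d (dw C w) ≤ rk d d :=
  ⟨fun h => h.2 d hd, fun h => ⟨hw, fun d' hd' => by
    rw [rk_left (C.orb _ hw) hd' hd, rk_const (C.orb _ hw) (C.orb _ hw) hd' hd]
    exact h⟩⟩

theorem G_sub : G C ⊆ T1 C := fun _ hw =>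
  ⟨hw.1, fun _ hd => (rk_right (C.orb _ hw.1) hw.2 hd).le⟩

theorem G_smul {D : Kp C.p → ℂ} {y : Fin C.ν → ℂ} {c : ℂ} (hc : c ≠ 0) (hy : y ∈ C.Z) :
    Sum.elim D (c • y) ∈ G C ↔ Sum.elim D y ∈ G C := by
  have h1 : c • y ∈ C.Z := C.pv.inv (fun _ => c) (Pi.isUnit_iff.2 fun _ => hc.isUnit) y hy
  change c • y ∈ C.Z ∧ _ ∈ C.O (c • y) ↔ y ∈ C.Z ∧ _ ∈ C.O y
  rw [C.smul y hy c hc]
  exact ⟨fun h => ⟨hy, h.2⟩, fun h => ⟨h1, h.2⟩⟩

theorem T1_smul {D : Kp C.p → ℂ} {y : Fin C.ν → ℂ} {c : ℂ} (hc : c ≠ 0)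
    (h : Sum.elim D y ∈ T1 C) : Sum.elim D (c • y) ∈ T1 C :=
  ⟨C.pv.inv (fun _ => c) (Pi.isUnit_iff.2 fun _ => hc.isUnit) y h.1,
    fun d hd => h.2 d (C.smul y h.1 c hc ▸ hd)⟩

/-- the generators of the algebra of equations -/
def gens (u : (Fin C.ν → ℂ) → MM C.p C.p 3) : Set ((Kp C.p ⊕ Fin C.ν → ℂ) → ℂ) :=
  Set.range (fun k w => w (.inl k)) ∪ Set.range fun k w => co C.p (u (w ∘ .inr)) k

theorem an_co {E : Type} [NormedAddCommGroup E] [NormedSpace ℂ E] {u : E → MM C.p C.p 3} {z : E}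
    (hu : AnalyticAt ℂ u z) (k : Kp C.p) : AnalyticAt ℂ (fun y => co C.p (u y) k) z :=
  ((LinearMap.proj k ∘ₗ (co C.p).toLinearMap).toContinuousLinearMap.analyticAt _).comp hu

variable {u : (Fin C.ν → ℂ) → MM C.p C.p 3} {z : Fin C.ν → ℂ}

theorem gens_le (hu : AnalyticAt ℂ u z) : Algebra.adjoin ℂ (gens u) ≤ PA (Kp C.p) z := by
  refine Algebra.adjoin_le ?_
  rintro _ (⟨k, rfl⟩ | ⟨k, rfl⟩)
  · exact PA.var k
  · exact PA.an (an_co hu k)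

theorem fam_dw : Fam (Algebra.adjoin ℂ (gens u)) fun w => (dw C w).1 :=
  fam_co fun k => Algebra.subset_adjoin (.inl ⟨k, rfl⟩)

theorem fam_u : Fam (Algebra.adjoin ℂ (gens u)) fun w => (u (w ∘ .inr)).1 := by
  have := fam_co (A := Algebra.adjoin ℂ (gens u)) (M := fun w => co C.p (u (w ∘ .inr)))
    fun k => Algebra.subset_adjoin (.inr ⟨k, rfl⟩)
  simpa only [LinearEquiv.symm_apply_apply] using this

theorem loc_of {T : Set (Kp C.p ⊕ Fin C.ν → ℂ)} (hu : AnalyticAt ℂ u z)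
    {Q : Set ((Kp C.p ⊕ Fin C.ν → ℂ) → ℂ)} (hQ : ∀ f ∈ Q, f ∈ Algebra.adjoin ℂ (gens u))
    (h : ∀ᶠ y in 𝓝[C.Z] z, ∀ D, Sum.elim D y ∈ T ↔ ∀ f ∈ Q, f (Sum.elim D y) = 0) :
    ∃ (ι : Type) (_ : Finite ι) (f : ι → (Kp C.p ⊕ Fin C.ν → ℂ) → ℂ),
      (∀ i, f i ∈ PA (Kp C.p) z) ∧
      ∀ᶠ y in 𝓝[C.Z] z, ∀ D, Sum.elim D y ∈ T ↔ ∀ i, f i (Sum.elim D y) = 0 := by
  obtain ⟨ι, _, f, h1, h2⟩ := fin_eqs ((Set.finite_range _).union (Set.finite_range _)) hQ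
  exact ⟨ι, inferInstance, f, fun i => gens_le hu (hQ _ (h1 i)),
    h.mono fun y hy D => (hy D).trans (h2 _)⟩

/-- the equations of the first locus -/
def Q1 (u : (Fin C.ν → ℂ) → MM C.p C.p 3) (r : ℕ) : Set ((Kp C.p ⊕ Fin C.ν → ℂ) → ℂ) :=
  {f | ∃ (α : Fin (r + 1) → MM C.p C.p 0) (β : Fin (r + 1) → MM C.p C.p 3 →ₗ[ℂ] ℂ),
    f = fun w => (fm (dl (u (w ∘ .inr)) (dw C w)) α β).det}

/-- the further equations of the second locus -/
def Q2 (u : (Fin C.ν → ℂ) → MM C.p C.p 3) (r : ℕ) : Set ((Kp C.p ⊕ Fin C.ν → ℂ) → ℂ) :=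
  {f | ∃ (α : Fin r → MM C.p C.p 0) (β : Fin r → MM C.p C.p 3 →ₗ[ℂ] ℂ) (c : MM C.p C.p 0),
    f = fun w => (fm (dl (u (w ∘ .inr)) (dw C w)) α β).det *
      coeff 0 (cr (dl (u (w ∘ .inr)) (dw C w)) α β c).1.det}

theorem Q1_mem (r : ℕ) : ∀ f ∈ Q1 u r, f ∈ Algebra.adjoin ℂ (gens u) := by
  rintro _ ⟨α, β, rfl⟩
  exact det_mem (fm_mem fam_u fam_dw α β)

theorem Q2_mem (r : ℕ) : ∀ f ∈ Q2 u r, f ∈ Algebra.adjoin ℂ (gens u) := by
  rintro _ ⟨α, β, c, rfl⟩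
  exact mul_mem (det_mem (fm_mem fam_u fam_dw α β)) (cdet_mem (fam_cr fam_u fam_dw α β c))

theorem T1_iff {w : Kp C.p ⊕ Fin C.ν → ℂ} (hw : w ∘ Sum.inr ∈ C.Z)
    (hd : (u (w ∘ .inr)).1 ∈ C.O (w ∘ Sum.inr)) {r : ℕ}
    (hr : rk (u (w ∘ .inr)) (u (w ∘ .inr)) = r) : w ∈ T1 C ↔ ∀ f ∈ Q1 u r, f w = 0 := by
  rw [mem_T1 hw hd, hr, rk, rank_le_iff]
  exact ⟨fun h _ ⟨α, β, e⟩ => e ▸ h α β, fun h α β => h _ ⟨α, β, rfl⟩⟩

theorem T2_iff {w : Kp C.p ⊕ Fin C.ν → ℂ} (hw : w ∘ Sum.inr ∈ C.Z)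
    (hd : (u (w ∘ .inr)).1 ∈ C.O (w ∘ Sum.inr)) {r : ℕ}
    (hr : rk (u (w ∘ .inr)) (u (w ∘ .inr)) = r) :
    w ∈ T2 C ↔ ∀ f ∈ Q1 u r ∪ Q2 u r, f w = 0 := by
  have e : w ∈ T1 C → (w ∉ G C ↔ ∀ f ∈ Q2 u r, f w = 0) := fun h => by
    have h1 := notMem_iff (C.orb _ hw) hd hr (((mem_T1 hw hd).1 h).trans hr.le)
    have h2 : w ∉ G C ↔ (dw C w).1 ∉ C.O (w ∘ Sum.inr) := ⟨fun k a => k ⟨hw, a⟩, fun k a => k a.2⟩
    rw [h2, h1]
    refine ⟨fun h f hf => ?_, fun h α β c => h _ ⟨α, β, c, rfl⟩⟩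
    obtain ⟨α, β, c, rfl⟩ := hf
    exact h α β c
  refine ⟨fun h f hf => hf.elim ((T1_iff hw hd hr).1 h.1 f) ((e h.1).1 h.2 f), fun h => ?_⟩
  have h1 := (T1_iff hw hd hr).2 fun f hf => h f (.inl hf)
  exact ⟨h1, (e h1).2 fun f hf => h f (.inr hf)⟩

variable (C)

theorem ra_T1 : RA C.Z (T1 C) := by
  refine ⟨fun w h => h.1, fun D y h c hc => T1_smul hc h, fun z hz => ?_⟩
  obtain ⟨u, h1, h2, -⟩ := C.loc z hz
  refine loc_of h1 (Q1_mem (rk (u z) (u z))) ?_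
  filter_upwards [h2, self_mem_nhdsWithin] with y a b D
  exact T1_iff b a (rk_const (C.orb _ b) (C.orb _ hz) a (h2.self_of_nhdsWithin hz))

theorem ra_T2 : RA C.Z (T2 C) := by
  refine ⟨fun w h => h.1.1, fun D y h c hc => ⟨T1_smul hc h.1,
    fun k => h.2 ((G_smul hc h.1.1).1 k)⟩, fun z hz => ?_⟩
  obtain ⟨u, h1, h2, -⟩ := C.loc z hz
  refine loc_of h1 (Q := Q1 u (rk (u z) (u z)) ∪ Q2 u (rk (u z) (u z)))
    (fun f hf => hf.elim (Q1_mem _ f) (Q2_mem _ f)) ?_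
  filter_upwards [h2, self_mem_nhdsWithin] with y a b D
  exact T2_iff b a (rk_const (C.orb _ b) (C.orb _ hz) a (h2.self_of_nhdsWithin hz))

end Vale.Agent.P287T.Et
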