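import Vale.Agent.P287T.Et.RcM

/-!
# The relative theorem of Chow, from the theorem for analytic cones
-/

set_option linter.unusedSectionVars false

open Set Filter Topology Function MvPolynomial

noncomputable section

namespace Vale.Agent.P287T.Et

open Vale.Agent.P287Q Vale.Agent.P287Q.Cub P269 P269.Holo

variable {K N : Type} [Fintype K] [Fintype N] {Z : Set (N → ℂ)} {T : Set (K ⊕ N → ℂ)} {n : ℕ}
  {z : N → ℂ}

/-- an analytic cone without its vertex -/
structure ACn (Z : Set (N → ℂ)) : Prop where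
  ne : ∀ y ∈ Z, y ≠ 0
  smul : ∀ y ∈ Z, ∀ c : ℂ, c ≠ 0 → c • y ∈ Z
  anl : ∀ y ≠ 0, AnL Z y

namespace RcR

/-- the affine point of a point at finite distance -/
def dh (u : Option K ⊕ N → ℂ) : K ⊕ N → ℂ :=
  Sum.elim (fun k => u (.inl (some k)) / u (.inl none)) (u ∘ .inr)

/-- the embedding of the affine part -/
def em (w : K ⊕ N → ℂ) : Option K ⊕ N → ℂ := Sum.elim (fun o => o.elim 1 (w ∘ .inl)) (w ∘ .inr)

theorem dh_em (w : K ⊕ N → ℂ) : dh (em w) = w := funext fun j => by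
  cases j <;> simp [dh, em]

theorem an_co {J : Type} [Fintype J] (j : J) (u : J → ℂ) : AnalyticAt ℂ (fun u : J → ℂ => u j) u :=
  (ContinuousLinearMap.proj (R := ℂ) (φ := fun _ : J => ℂ) j).analyticAt u

theorem an_inr {J : Type} [Fintype J] (u : J ⊕ N → ℂ) :
    AnalyticAt ℂ (fun u : J ⊕ N → ℂ => u ∘ .inr) u := analyticAt_pi_iff.2 fun _ => an_co _ _

theorem an_em (w : K ⊕ N → ℂ) : AnalyticAt ℂ em w := analyticAt_pi_iff.2 fun j => by
  rcases j with (_ | k) | j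
  exacts [analyticAt_const, an_co (Sum.inl k) w, an_co (Sum.inr j) w]

theorem an_dh {u : Option K ⊕ N → ℂ} (h : u (.inl none) ≠ 0) : AnalyticAt ℂ dh u :=
  analyticAt_pi_iff.2 fun j => by
    rcases j with k | j
    exacts [(an_co (Sum.inl (some k)) u).div (an_co (Sum.inl none) u) h, an_co (Sum.inr j) u]

theorem exists_pull (P : MvPolynomial (Option K ⊕ N) ℂ) :
    ∃ Q : MvPolynomial (K ⊕ N) ℂ, (fun w => eval w Q) = fun w => eval (em w) P :=
  ⟨bind₁ (Sum.elim (fun o => o.elim 1 fun k => X (.inl k)) fun j => X (.inr j)) P, funext fun y => by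
    rw [← coe_aeval_eq_eval, ← coe_aeval_eq_eval]
    refine (aeval_bind₁ _ _ _).trans (congrArg (aeval · P) (funext fun j => ?_))
    rcases j with (_ | k) | j <;> simp [em]⟩

/-- Homogenisation. -/
theorem exists_hom {F : (K ⊕ N → ℂ) → ℂ} (h : F ∈ PA K z) : ∃ (e : ℕ) (G : (Option K ⊕ N → ℂ) → ℂ),
    (∀ u, u ∘ .inr = z → AnalyticAt ℂ G u) ∧
      ∀ u, u (.inl none) ≠ 0 → G u = u (.inl none) ^ e * F (dh u) := by
  induction h using Algebra.adjoin_induction with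
  | mem F h =>
    obtain ⟨k, rfl⟩ | ⟨a, ha, rfl⟩ := h
    · exact ⟨1, fun u => u (.inl (some k)), fun u _ => an_co _ _, fun u a => by
        rw [pow_one]
        exact (mul_div_cancel₀ _ a).symm⟩
    · exact ⟨0, fun u => a (u ∘ .inr), fun u b => ha.comp_of_eq (an_inr u) b, fun u _ => by
        rw [pow_zero, one_mul]
        rfl⟩
  | algebraMap c => exact ⟨0, fun _ => c, fun _ _ => analyticAt_const, fun u _ => by simp⟩
  | add F F' _ _ a b =>
    obtain ⟨e, G, a1, a2⟩ := a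
    obtain ⟨e', G', b1, b2⟩ := b
    refine ⟨e + e', fun u => u (.inl none) ^ e' * G u + u (.inl none) ^ e * G' u, fun u c =>
      (((an_co _ _).pow _).mul (a1 u c)).add (((an_co _ _).pow _).mul (b1 u c)), fun u c => ?_⟩
    simp only [a2 u c, b2 u c, Pi.add_apply]
    ring
  | mul F F' _ _ a b =>
    obtain ⟨e, G, a1, a2⟩ := a
    obtain ⟨e', G', b1, b2⟩ := b
    refine ⟨e + e', fun u => G u * G' u, fun u c => (a1 u c).mul (b1 u c), fun u c => ?_⟩
    simp only [a2 u c, b2 u c, Pi.mul_apply]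
    ring

/-- the set together with the hyperplane at infinity -/
def cl (Z : Set (N → ℂ)) (T : Set (K ⊕ N → ℂ)) : Set (Option K ⊕ N → ℂ) :=
  {u | u ∘ .inr ∈ Z ∧ (u (.inl none) = 0 ∨ dh u ∈ T)}

theorem ust0 {y : N → ℂ} : y ∈ Ust (π₀ N) ↔ y ≠ 0 :=
  ⟨fun h e => (h ()).elim fun j a => a.2 (congrFun e j),
    fun h _ => (ne_iff.1 h).imp fun _ a => ⟨rfl, a⟩⟩

theorem acn_pv (hZ : PV (π₀ N) Z n) : ACn Z := by
  obtain ⟨k, δ, g, -, hg, -⟩ := chow N Unit Empty (π₀ N) (fun _ => Empty.elim) Z n hZ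
    fun τ _ y a => (funext fun j => by simp [tw] : y = tw _ τ y) ▸ a
  exact ⟨fun y a => ust0.1 (hZ.sub a), fun y a c b => hZ.inv (fun _ => c)
    (Chow1.unit_of fun _ => b) y a, fun y a => ⟨Fin k, inferInstance, fun i x => eval x (g i),
      fun i => an_eval _ _, (isOpen_ne.eventually_mem a).mono fun x b =>
        (hg.zero _ (ust0.2 b)).trans funext_iff⟩⟩

theorem acn_ne : ACn {y : N → ℂ | y ≠ 0} :=
  ⟨fun _ a => a, fun _ a _ b => smul_ne_zero b a, fun _ a => ⟨Empty, inferInstance, Empty.elim,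
    fun i => i.elim, (isOpen_ne.eventually_mem a).mono fun _ b => iff_of_true b fun i => i.elim⟩⟩

theorem cl_inv (hZ : ACn Z) (h : RA Z T) (t : Bool → ℂ) (ht : IsUnit t) :
    ∀ u ∈ cl Z T, scl Sum.isRight t u ∈ cl Z T := fun u hu => by
  have a := fun r => (Pi.isUnit_iff.1 ht r).ne_zero
  refine ⟨hZ.smul _ hu.1 _ (a true), hu.2.imp (fun e => mul_eq_zero_of_right _ e) fun e => ?_⟩
  have := h.smul _ _ e _ (a true)
  refine (funext fun j => ?_ : _ = dh _) ▸ this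
  rcases j with k | j
  · exact (mul_div_mul_left _ _ (a false)).symm
  · rfl

theorem cl_anl (hZ : ACn Z) (h : RA Z T) {u : Option K ⊕ N → ℂ} (hu : u ∘ .inr ≠ 0) :
    AnL (cl Z T) u := by
  obtain ⟨κ, _, g, g0, hg⟩ := hZ.anl _ hu
  have c := (an_inr u).continuousAt
  have z1 := c.eventually hg
  by_cases a : u ∘ .inr ∈ Z
  · obtain ⟨ι, _, f, f1, f2⟩ := h.loc _ a
    choose e G g1 g2 using fun i => exists_hom (f1 i)
    refine ⟨κ ⊕ ι, inferInstance, Sum.elim (fun i x => g i (x ∘ .inr))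
      fun i x => x (.inl none) * G i x, Sum.forall.2 ⟨fun i => (g0 i).comp_of_eq (an_inr u) rfl,
        fun i => (an_co _ _).mul (g1 i u rfl)⟩, ?_⟩
    filter_upwards [z1, c.eventually (eventually_nhdsWithin_iff.1 f2)] with x b d
    rw [Sum.forall]
    refine Iff.trans (and_congr_right fun m => ?_) (and_congr_left' b)
    by_cases t : x (.inl none) = 0
    · exact iff_of_true (.inl t) fun i => mul_eq_zero_of_left t _
    refine (or_iff_right t).trans ((d m _).trans (forall_congr' fun i => ?_))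
    rw [Sum.elim_inr, g2 i x t, mul_eq_zero, mul_eq_zero, or_iff_right t, or_iff_right (pow_ne_zero _ t)]
    rfl
  · refine ⟨Unit, inferInstance, fun _ _ => 1, fun _ => analyticAt_const, ?_⟩
    obtain ⟨i, b⟩ := not_forall.1 (mt z1.self_of_nhds.2 a)
    filter_upwards [z1, ((g0 i).comp_of_eq (an_inr u) rfl).continuousAt.eventually_ne b] with x d e
    exact iff_of_false (fun m => e (d.1 m.1 i)) fun m => one_ne_zero (m ())

theorem em_mem (h : RA Z T) {w : K ⊕ N → ℂ} : em w ∈ cl Z T ↔ w ∈ T :=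
  ⟨fun a => dh_em w ▸ a.2.resolve_left one_ne_zero,
    fun a => ⟨h.sub w a, .inr ((dh_em w).symm ▸ a)⟩⟩

theorem alg (hc : CC) (hZ : ACn Z) (h : RA Z T) {w : K ⊕ N → ℂ} (hw : w ∘ .inr ≠ 0) :
    Alg T w := by
  obtain ⟨c1, c2⟩ := alg_multi hc (cl_inv hZ h) (fun u a => cl_anl hZ h fun e => by
    obtain ⟨j | j, b, c⟩ := a true
    exacts [Bool.false_ne_true b, c (congrFun e j)]) (y := em w) fun r => by
      cases r
      exacts [⟨.inl none, rfl, one_ne_zero⟩, (ne_iff.1 hw).elim fun j a => ⟨.inr j, rfl, a⟩]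
  have pull : ∀ P : MvPolynomial (Option K ⊕ N) ℂ, (∀ x ∈ cl Z T, eval x P = 0) →
      ∃ Q : MvPolynomial (K ⊕ N) ℂ, (∀ x ∈ T, eval x Q = 0) ∧
        (fun w => eval w Q) = fun w => eval (em w) P := fun P a =>
    (exists_pull P).imp fun Q k => ⟨fun x b => (congrFun k x).trans (a _ ((em_mem h).2 b)), k⟩
  refine ⟨fun e => (em_mem h).1 (c1 fun P a => ?_), fun hT Φ h1 h2 ξ e => ?_⟩
  · obtain ⟨Q, k1, k2⟩ := pull P a
    exact (congrFun k2 w).symm.trans (e Q k1)
  have t : em w (.inl none) ≠ 0 := one_ne_zero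
  have a1 : AnalyticAt ℂ (fun u => Φ (dh u)) (em w) := h1.comp_of_eq (an_dh t) (dh_em w)
  have t1 : Tendsto dh (𝓝 (em w)) (𝓝 (dh (em w))) := (an_dh t).continuousAt
  rw [dh_em] at t1
  have := c2 ((em_mem h).2 hT) _ a1 (by
    filter_upwards [t1.eventually h2, (continuous_apply (Sum.inl none)).continuousAt.eventually_ne t]
      with u a b c using a (c.2.resolve_left b)) (fderiv ℂ em w ξ) fun P a => by
    obtain ⟨Q, k1, k2⟩ := pull P a
    have := e Q k1
    rwa [k2, fderiv_comp_an (an_eval P _) (an_em w)] at this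
  refine Eq.trans ?_ (congr($(fderiv_comp_an a1 (an_em w)) ξ).trans this)
  simp only [dh_em]

theorem mem_span (h : RA Z T) {P : MvPolynomial (K ⊕ N) ℂ} (hP : ∀ x ∈ T, eval x P = 0) :
    P ∈ Ideal.span (JH T) := by
  obtain ⟨S, s1, s2⟩ := Chow.exists_gen (C := T)
    (w := fun j (_ : Unit) => ((Sum.elim 0 1 : K ⊕ N → ℕ) j : ℤ)) fun τ a x b => by
      have := h.smul (x ∘ .inl) (x ∘ .inr) (by rwa [Sum.elim_comp_inl_inr]) _
        (Pi.isUnit_iff.1 a ()).ne_zero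
      refine (funext fun j => ?_ : _ = tw _ τ x) ▸ this
      cases j <;> simp [tw]
  refine Ideal.span_mono (fun p a => ?_) (s2 P hP)
  obtain ⟨-, b, m, c⟩ := s1 p a
  refine ⟨⟨(m ()).toNat, fun d e => ?_⟩, b⟩
  rw [← c d (mem_support_iff.2 e) (), Finsupp.weight_apply, Finsupp.sum_fintype _ _ (by simp)]
  simp only [smul_eq_mul, ← Nat.cast_mul, ← Nat.cast_sum, Int.toNat_natCast]

end RcR

open RcR in
theorem rc_acn (hc : CC) (hZ : ACn Z) (h : RA Z T) (w : K ⊕ N → ℂ) :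
    (w ∘ .inr ≠ 0 → (∀ P ∈ JH T, eval w P = 0) → w ∈ T) ∧
    (w ∈ T → ∀ h : (K ⊕ N → ℂ) → ℂ, AnalyticAt ℂ h w → (∀ᶠ x in 𝓝 w, x ∈ T → h x = 0) →
      ∀ ξ, (∀ P ∈ JH T, fderiv ℂ (fun x => eval x P) w ξ = 0) → fderiv ℂ h w ξ = 0) :=
  ⟨fun a b => (alg hc hZ h a).1 fun _ g => (Chow.span_van (v := 0)
      (fun p c => ⟨b p c, map_zero _⟩) (mem_span h g)).1,
    fun a Φ b c ξ d => (alg hc hZ h (hZ.ne _ (h.sub w a))).2 a Φ b c ξ fun _ g =>
      (Chow.span_van (fun p c => ⟨c.2 w a, d p c⟩) (mem_span h g)).2⟩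

theorem rc_of (hc : CC) : StRc := fun _ _ _ _ _ _ _ hZ h => rc_acn hc (RcR.acn_pv hZ) h

end Vale.Agent.P287T.Et
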