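import Vale.Agent.P287T.Et.Asm
import Vale.Agent.P287T.Et.Mf
import Vale.Agent.P287T.Et.RcR

/-!
# Smooth algebraic charts from the theorem of Chow for cones
-/

open MvPolynomial

namespace Vale.Agent.P287T.Et

open Vale.Agent.P287T.Cy Vale.Agent.P287T.Au

variable {W : S6} {C : Cf W}

theorem alg_T1 (hc : CC) {w : Kp C.p ⊕ Fin C.ν → ℂ} (hw : w ∘ .inr ≠ 0) : Alg (T1 C) w :=
  RcR.alg hc (RcR.acn_pv C.pv) (ra_T1 C) hw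

theorem alg_T2 (hc : CC) {w : Kp C.p ⊕ Fin C.ν → ℂ} (hw : w ∘ .inr ≠ 0) : Alg (T2 C) w :=
  RcR.alg hc (RcR.acn_pv C.pv) (ra_T2 C) hw

theorem ch_cc (hc : CC) {a : Kp C.p ⊕ Fin C.ν → ℂ} (ha : a ∈ G C)
    (h1 : ∀ w, Zt (G C) a w → Crv (G C) a w)
    (h2 : ∀ v, Zt C.Z (a ∘ .inr) v → ∃ w, Crv (G C) a w ∧ w ∘ .inr = v) :
    Nonempty (Ch C.I (G C) a) :=
  exists_ch ha G_sub (fun _ k => (alg_T1 hc k).1) (alg_T2 hc (cf_ne C ha.1)).1 h1 h2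

theorem stEt_cc (hc : CC) (h1 : H1) (h2 : H2) : StEt :=
  stEt_of_ch fun W C a ha => ch_cc hc ha (h1 W C a ha) (h2 W C a ha)

end Vale.Agent.P287T.Et
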