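import Mathlib.Analysis.Analytic.Polynomial
import Mathlib.Analysis.Calculus.Deriv.Slope
import Mathlib.Analysis.Calculus.Deriv.Comp
import Mathlib.Analysis.Calculus.FDeriv.Mul
import Mathlib.Analysis.Calculus.FDeriv.Pi
import Mathlib.Analysis.Complex.Basic
import Mathlib.Algebra.MvPolynomial.PDeriv
import Mathlib.Algebra.MvPolynomial.Funext
import Mathlib.LinearAlgebra.Dual.Lemmas
import Mathlib.RingTheory.Filtration
import Mathlib.RingTheory.Polynomial.Basic

/-!
# Polynomials vanishing on a set with enough curves through a point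
-/

set_option linter.unusedSectionVars false

open MvPolynomial Filter Topology

noncomputable section

namespace Vale.Agent.P287T.Et

variable {σ : Type} [Fintype σ]

/-- the differential of a polynomial -/
abbrev dP (P : MvPolynomial σ ℂ) (a : σ → ℂ) : (σ → ℂ) →L[ℂ] ℂ := fderiv ℂ (fun y => eval y P) a

/-- `P` vanishes on `A` -/
def Van {σ : Type} (A : Set (σ → ℂ)) (P : MvPolynomial σ ℂ) : Prop := ∀ y ∈ A, eval y P = 0

/-- `v` is tangent to the Zariski closure of `A` at `a` -/
def Zt (A : Set (σ → ℂ)) (a v : σ → ℂ) : Prop := ∀ P, Van A P → dP P a v = 0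

/-- `v` is the velocity of a curve in `A` through `a` -/
def Crv (A : Set (σ → ℂ)) (a v : σ → ℂ) : Prop :=
  ∃ γ : ℂ → σ → ℂ, γ 0 = a ∧ HasDerivAt γ v 0 ∧ ∀ᶠ s in 𝓝 0, γ s ∈ A

theorem hasFD (P : MvPolynomial σ ℂ) (a : σ → ℂ) : HasFDerivAt (fun y : σ → ℂ => eval y P)
    (∑ i, eval a (pderiv i P) • ContinuousLinearMap.proj i : (σ → ℂ) →L[ℂ] ℂ) a := by
  classical
  induction P using MvPolynomial.induction_on with
  | C c =>
    simp only [eval_C]
    exact (hasFDerivAt_const c a).congr_fderiv (ContinuousLinearMap.ext fun v => by simp)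
  | add p q hp hq =>
    simp only [map_add]
    exact (hp.fun_add hq).congr_fderiv (ContinuousLinearMap.ext fun v => by
      simp [add_mul, Finset.sum_add_distrib])
  | mul_X p i hp =>
    simp only [map_mul, eval_X]
    refine (hp.mul (hasFDerivAt_apply i a)).congr_fderiv (ContinuousLinearMap.ext fun v => ?_)
    simp [pderiv_X, Pi.single_apply, add_mul, Finset.sum_add_distrib, Finset.mul_sum, mul_assoc,
      apply_ite]

theorem dP_eq (P : MvPolynomial σ ℂ) (a v : σ → ℂ) :
    dP P a v = ∑ i, eval a (pderiv i P) * v i := by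
  rw [dP, (hasFD P a).fderiv]
  simp

theorem hasFD' (P : MvPolynomial σ ℂ) (a : σ → ℂ) :
    HasFDerivAt (fun y : σ → ℂ => eval y P) (dP P a) a := (hasFD P a).differentiableAt.hasFDerivAt

theorem dP_single [DecidableEq σ] (P : MvPolynomial σ ℂ) (a : σ → ℂ) (i : σ) :
    dP P a (Pi.single i 1) = eval a (pderiv i P) := by
  simp [dP_eq, Pi.single_apply]

theorem Crv.mem {A : Set (σ → ℂ)} {a v : σ → ℂ} (h : Crv A a v) : a ∈ A := by
  obtain ⟨γ, rfl, -, h⟩ := h
  exact h.self_of_nhds

theorem Crv.zt {A : Set (σ → ℂ)} {a v : σ → ℂ} (h : Crv A a v) : Zt A a v := by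
  obtain ⟨γ, rfl, h1, h2⟩ := h
  intro P hP
  exact ((hasFD' P (γ 0)).comp_hasDerivAt 0 h1).unique
    ((hasDerivAt_const (0 : ℂ) (0 : ℂ)).congr_of_eventuallyEq (h2.mono fun s hs => hP _ hs))

/-- a linear form centred at `a` -/
def lin (a c : σ → ℂ) : MvPolynomial σ ℂ := ∑ i, C (c i) * (X i - C (a i))

theorem eval_lin (a c y : σ → ℂ) : eval (a + y) (lin a c) = ∑ i, c i * y i := by
  simp [lin]

theorem lin_mem (a c : σ → ℂ) : lin a c ∈ RingHom.ker (eval a) := by
  simp [lin, RingHom.mem_ker]

theorem pderiv_lin (a c : σ → ℂ) (i : σ) : pderiv i (lin a c) = C (c i) := by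
  classical
  simp [lin, pderiv_X, Pi.single_apply]

theorem tay (a : σ → ℂ) (P : MvPolynomial σ ℂ) :
    P - C (eval a P) - lin a (fun i => eval a (pderiv i P)) ∈ RingHom.ker (eval a) ^ 2 := by
  classical
  induction P using MvPolynomial.induction_on with
  | C c => simp [lin]
  | add p q hp hq =>
    have e : p + q - C (eval a (p + q)) - lin a (fun i => eval a (pderiv i (p + q))) =
        (p - C (eval a p) - lin a fun i => eval a (pderiv i p)) +
          (q - C (eval a q) - lin a fun i => eval a (pderiv i q)) := by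
      simp only [lin, map_add, add_mul, Finset.sum_add_distrib]
      ring
    rw [e]
    exact add_mem hp hq
  | mul_X p i hp =>
    have e0 : lin a (fun j => eval a (pderiv j (p * X i))) =
        C (a i) * lin a (fun j => eval a (pderiv j p)) + C (eval a p) * (X i - C (a i)) := by
      simp [lin, pderiv_X, Pi.single_apply, add_mul, Finset.sum_add_distrib, Finset.mul_sum,
        mul_assoc, apply_ite, add_comm]
    have e : p * X i - C (eval a (p * X i)) - lin a (fun j => eval a (pderiv j (p * X i))) =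
        (p - C (eval a p) - lin a fun j => eval a (pderiv j p)) * X i +
          lin a (fun j => eval a (pderiv j p)) * (X i - C (a i)) := by
      rw [e0, map_mul, eval_X, map_mul]
      ring
    rw [e]
    refine add_mem (Ideal.mul_mem_right _ _ hp) ?_
    rw [pow_two]
    exact Ideal.mul_mem_mul (lin_mem _ _) (by simp [RingHom.mem_ker])

/-- If every vector killed by the differentials of the elements of `I` is the velocity of a curve
in `A`, then `I` contains, locally at `a`, every polynomial vanishing on `A`. -/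
theorem l0 {A : Set (σ → ℂ)} {a : σ → ℂ} {I : Ideal (MvPolynomial σ ℂ)} (hI : ∀ P ∈ I, Van A P)
    (hc : ∀ v, (∀ P ∈ I, dP P a v = 0) → Crv A a v) {g : MvPolynomial σ ℂ} (hg : Van A g) :
    ∃ h, eval a h ≠ 0 ∧ h * g ∈ I := by
  classical
  let L : I → (σ → ℂ) →ₗ[ℂ] ℂ := fun P => (dP P.1 a : (σ → ℂ) →ₗ[ℂ] ℂ)
  let V : Submodule ℂ (σ → ℂ) := ⨅ P, LinearMap.ker (L P)
  obtain ⟨π, hπ⟩ := V.subtype.exists_leftInverse_of_injective V.ker_subtype
  have hV : ∀ y, Crv A a (π y) := fun y => hc _ fun P hP =>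
    (Submodule.mem_iInf _).1 (π y).2 ⟨P, hP⟩
  have ha : a ∈ A := (hV 0).mem
  choose γ γ0 γ1 γ2 using hV
  set m := RingHom.ker (eval a : MvPolynomial σ ℂ →+* ℂ) with hm
  have one : ∀ x ∈ m, ∃ Q ∈ m, x - Q ∈ I ⊔ m ^ 2 ∧ ∀ y,
      Tendsto (fun s => eval (γ y s) x / s) (𝓝[≠] 0) (𝓝 (eval (a + y) Q)) := by
    intro x hx
    let l : (σ → ℂ) →ₗ[ℂ] ℂ := (dP x a : (σ → ℂ) →ₗ[ℂ] ℂ) ∘ₗ V.subtype ∘ₗ π
    have h1 : (dP x a : (σ → ℂ) →ₗ[ℂ] ℂ) - l ∈ Submodule.span ℂ (Set.range L) :=
      FiniteDimensional.mem_span_of_iInf_ker_le_ker fun v hv => by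
        have : π v = ⟨v, hv⟩ := LinearMap.congr_fun hπ ⟨v, hv⟩
        simp [l, this]
    have h2 : ∀ f ∈ Submodule.span ℂ (Set.range L), ∃ P ∈ I, ∀ v, dP P a v = f v := by
      intro f hf
      induction hf using Submodule.span_induction with
      | mem f hf =>
        obtain ⟨P, rfl⟩ := hf
        exact ⟨P, P.2, fun _ => rfl⟩
      | zero => exact ⟨0, I.zero_mem, fun v => by simp [dP_eq]⟩
      | add f f' _ _ h h' =>
        obtain ⟨P, k1, k2⟩ := h
        obtain ⟨P', k3, k4⟩ := h'
        exact ⟨P + P', add_mem k1 k3, fun v => by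
          simp [← k2, ← k4, dP_eq, add_mul, Finset.sum_add_distrib]⟩
      | smul c f _ h =>
        obtain ⟨P, k1, k2⟩ := h
        exact ⟨C c * P, I.mul_mem_left _ k1, fun v => by
          simp [← k2, dP_eq, Finset.mul_sum, mul_assoc]⟩
    obtain ⟨P, hP, hP'⟩ := h2 _ h1
    refine ⟨lin a fun j => l (Pi.single j 1), lin_mem _ _, ?_, fun y => ?_⟩
    · have h3 := tay a (x - lin a (fun j => l (Pi.single j 1)) - P)
      have h4 : (fun i => eval a (pderiv i (x - lin a (fun j => l (Pi.single j 1)) - P))) = 0 := by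
        funext i
        rw [map_sub, map_sub, map_sub, map_sub, pderiv_lin, eval_C, ← dP_single, ← dP_single, hP']
        simp
      rw [h4, map_sub (eval a), map_sub (eval a), hx, lin_mem a _, hI P hP a ha] at h3
      have h5 := add_mem (Ideal.mem_sup_left (T := m ^ 2) hP) (Ideal.mem_sup_right (S := I) h3)
      simpa [lin] using h5
    · have h3 : HasDerivAt (fun s => eval (γ y s) x) (dP x a (π y)) 0 :=
        (hasFD' x a).comp_hasDerivAt_of_eq 0 (γ1 y) (γ0 y).symm
      have h4 : eval (a + y) (lin a fun j => l (Pi.single j 1)) = dP x a (π y) := by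
        rw [eval_lin]
        change _ = l y
        conv_rhs => rw [pi_eq_sum_univ' y, map_sum]
        simp [mul_comm]
      rw [h4]
      refine (hasDerivAt_iff_tendsto_slope.1 h3).congr fun s => ?_
      rw [slope_def_field, γ0, hx, sub_zero, sub_zero]
  have step : ∀ k : ℕ, ∀ x ∈ m ^ k, ∃ Q, x - Q ∈ I ⊔ m ^ (k + 1) ∧ ∀ y,
      Tendsto (fun s => eval (γ y s) x / s ^ k) (𝓝[≠] 0) (𝓝 (eval (a + y) Q)) := by
    intro k
    induction k with
    | zero =>
      refine fun x _ => ⟨C (eval a x), Ideal.mem_sup_right (by simp [hm, RingHom.mem_ker]),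
        fun y => ?_⟩
      have := ((hasFD' x (γ y 0)).continuousAt.comp (γ1 y).continuousAt).tendsto
      simpa [γ0, Function.comp_def] using this.mono_left nhdsWithin_le_nhds
    | succ k ih =>
      intro x hx
      rw [pow_succ] at hx
      induction hx using Submodule.mul_induction_on' with
      | mem_mul_mem x hx z hz =>
        obtain ⟨Q, k1, k2⟩ := ih x hx
        obtain ⟨Q', k3, k4, k5⟩ := one z hz
        refine ⟨Q * Q', ?_, fun y => ?_⟩
        · have e : x * z - Q * Q' = x * (z - Q') + (x - Q) * Q' := by ring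
          rw [e]
          refine add_mem ?_ ?_
          · have := Ideal.mul_mem_mul hx k4
            rw [Ideal.mul_sup, ← pow_add] at this
            exact (sup_le_sup_right Ideal.mul_le_right _ : _ ≤ I ⊔ m ^ (k + 2)) this
          · have := Ideal.mul_mem_mul k1 k3
            rw [Ideal.sup_mul, ← pow_succ] at this
            exact (sup_le_sup_right Ideal.mul_le_left _ : _ ≤ I ⊔ m ^ (k + 2)) this
        · rw [map_mul]
          exact ((k2 y).mul (k5 y)).congr fun s => by rw [map_mul, pow_succ, div_mul_div_comm]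
      | add x _ z _ h h' =>
        obtain ⟨Q, k1, k2⟩ := h
        obtain ⟨Q', k3, k4⟩ := h'
        refine ⟨Q + Q', by rw [add_sub_add_comm]; exact add_mem k1 k3, fun y => ?_⟩
        rw [map_add]
        exact ((k2 y).add (k4 y)).congr fun s => by rw [map_add, add_div]
  have all : ∀ k : ℕ, g ∈ I ⊔ m ^ k := by
    intro k
    induction k with
    | zero => simp
    | succ k ih =>
      obtain ⟨P, hP, x, hx, e⟩ := Submodule.mem_sup.1 ih
      obtain ⟨Q, k1, k2⟩ := step k x hx
      have hQ : Q = 0 := MvPolynomial.funext fun y => by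
        have h1 := k2 (y - a)
        rw [add_sub_cancel] at h1
        refine tendsto_nhds_unique h1 (tendsto_const_nhds.congr' ?_)
        filter_upwards [nhdsWithin_le_nhds (γ2 (y - a))] with s hs
        have h2 := hg _ hs
        rw [← e, map_add, hI P hP _ hs, zero_add] at h2
        rw [h2, zero_div, map_zero]
      rw [hQ, sub_zero] at k1
      exact e ▸ add_mem (Ideal.mem_sup_left hP) k1
  obtain ⟨r, hr⟩ := (m.mem_iInf_smul_pow_eq_bot_iff (Ideal.Quotient.mk I g)).1
    ((Submodule.mem_iInf _).2 fun k => by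
      obtain ⟨P, hP, x, hx, e⟩ := Submodule.mem_sup.1 (all k)
      have : Ideal.Quotient.mk I g = x • Ideal.Quotient.mk I 1 := by
        rw [← e, map_add, Ideal.Quotient.eq_zero_iff_mem.2 hP, zero_add]
        exact congrArg (Ideal.Quotient.mk I) (mul_one x).symm
      rw [this]
      exact Submodule.smul_mem_smul hx trivial)
  refine ⟨1 - r, by rw [map_sub, map_one, r.2, sub_zero]; exact one_ne_zero, ?_⟩
  rw [← Ideal.Quotient.eq_zero_iff_mem, sub_mul, one_mul, map_sub, ← hr, sub_eq_zero, hr, map_mul]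
  exact hr.symm

end Vale.Agent.P287T.Et
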