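import Vale.Agent.P286.H295.Red

/-!
# Smooth algebras over reduced rings are reduced; gradings from torus actions on points
-/

open TensorProduct MvPolynomial

noncomputable section

namespace Vale.Agent.P287T.Et

open Vale.Agent.P286.H295

/-- A smooth algebra over a reduced noetherian ring is reduced. -/
theorem red_of_smooth (R D : Type) [CommRing R] [IsNoetherianRing R] [IsReduced R] [CommRing D]
    [Algebra R D] [Algebra.Smooth R D] : IsReduced D := by
  classical
  refine ⟨fun x hx => ?_⟩
  have := (minimalPrimes.finite_of_isNoetherianRing R).fintype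
  have hp : ∀ p : minimalPrimes R, p.1.IsPrime := fun p => p.2.1.1
  let f : R →ₗ[R] ∀ p : minimalPrimes R, p.1.ResidueField :=
    LinearMap.pi fun p => Algebra.linearMap R _
  have hf : Function.Injective f := (injective_iff_map_eq_zero f).2 fun r hr => by
    have h1 : r ∈ sInf (⊥ : Ideal R).minimalPrimes := Submodule.mem_sInf.2 fun p h =>
      have := hp ⟨p, h⟩
      (Ideal.algebraMap_residueField_eq_zero (I := p)).1 (congrFun hr ⟨p, h⟩)
    rw [Ideal.sInf_minimalPrimes] at h1
    exact IsReduced.eq_zero r (mem_nilradical.1 h1)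
  have h2 : f.rTensor D (1 ⊗ₜ x) = 0 := by
    refine (piLeft R D fun p : minimalPrimes R => p.1.ResidueField).injective (funext fun p => ?_)
    have := isReduced_of_smooth p.1.ResidueField (p.1.ResidueField ⊗[R] D)
    have h3 := IsReduced.eq_zero _ (hx.map
      (Algebra.TensorProduct.includeRight (R := R) (A := p.1.ResidueField) (B := D)))
    simpa [f] using h3
  have h4 := (injective_iff_map_eq_zero _).1
    (Module.Flat.rTensor_preserves_injective_linearMap (M := D) f hf) _ h2
  simpa using congrArg (TensorProduct.lid R D) h4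

/-- The complex points separate the elements of a smooth algebra over a reduced algebra of finite
type. -/
theorem sep_of_smooth (R D : Type) [CommRing R] [Algebra ℂ R] [Algebra.FiniteType ℂ R]
    [IsReduced R] [CommRing D] [Algebra ℂ D] [Algebra R D] [IsScalarTower ℂ R D]
    [Algebra.Smooth R D] {x : D} (h : ∀ φ : D →ₐ[ℂ] ℂ, φ x = 0) : x = 0 := by
  have := Algebra.FiniteType.isNoetherianRing ℂ R
  have := red_of_smooth R D
  have : Algebra.FiniteType ℂ D := .trans (S := R) inferInstance inferInstance
  by_contra hx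
  obtain ⟨φ, hφ⟩ := exists_hom_ne hx
  exact hφ (h φ)

variable {σ : Type} (w : σ → ℤ)

/-- the torus action with weights `w` -/
def act (t : ℂ) (b : σ → ℂ) : σ → ℂ := fun i => t ^ w i * b i

variable {w}

theorem eval_act {P : MvPolynomial σ ℂ} {n : ℤ} (h : P.IsWeightedHomogeneous w n) {t : ℂ}
    (ht : t ≠ 0) (b : σ → ℂ) : eval (act w t b) P = t ^ n * eval b P := by
  rw [eval_eq, eval_eq, Finset.mul_sum]
  refine Finset.sum_congr rfl fun m hm => ?_
  have e : ∀ (s : Finset σ) (k : σ → ℤ), t ^ ∑ i ∈ s, k i = ∏ i ∈ s, t ^ k i := fun s k => by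
    classical
    induction s using Finset.induction_on with
    | empty => simp
    | insert i s hi ih => rw [Finset.sum_insert hi, Finset.prod_insert hi, zpow_add₀ ht, ih]
  rw [← h (mem_support_iff.1 hm), Finsupp.weight_apply, Finsupp.sum, e, mul_left_comm,
    ← Finset.prod_mul_distrib]
  refine congrArg _ (Finset.prod_congr rfl fun i _ => ?_)
  rw [act, mul_pow, nsmul_eq_mul, mul_comm (m i : ℤ), zpow_mul, zpow_natCast]

/-- A polynomial vanishing on an orbit has components vanishing on the orbit. -/
theorem eval_comp {P : MvPolynomial σ ℂ} {b : σ → ℂ} (h : ∀ t, t ≠ 0 → eval (act w t b) P = 0)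
    (n : ℤ) : eval b (weightedHomogeneousComponent w n P) = 0 := by
  classical
  let χ : ℤ → ℂˣ →* ℂ := fun k => (Units.coeHom ℂ).comp (zpowGroupHom k)
  have h1 : Function.Injective χ := fun k l e => by
    have := DFunLike.congr_fun e (Units.mk0 2 two_ne_zero)
    have h2 : ((2 : ℝ) : ℂ) ^ k = ((2 : ℝ) : ℂ) ^ l := by simpa [χ] using this
    rw [← Complex.ofReal_zpow, ← Complex.ofReal_zpow, Complex.ofReal_inj] at h2
    exact zpow_right_injective₀ two_pos (by norm_num) h2
  have h2 := (linearIndependent_monoidHom ℂˣ ℂ).comp χ h1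
  have h3 := weightedHomogeneousComponent_finsupp (w := w) P
  by_cases hn : n ∈ h3.toFinset
  · refine linearIndependent_iff'.1 h2 h3.toFinset
      (fun k => eval b (weightedHomogeneousComponent w k P)) (funext fun t => ?_) n hn
    have h4 := h t t.ne_zero
    rw [← sum_weightedHomogeneousComponent w P, finsum_eq_sum _ h3, map_sum] at h4
    rw [Finset.sum_apply, Pi.zero_apply, ← h4]
    refine Finset.sum_congr rfl fun k _ => ?_
    rw [eval_act (weightedHomogeneousComponent_isWeightedHomogeneous k P) t.ne_zero]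
    simp [χ, mul_comm]
  · have : weightedHomogeneousComponent w n P = 0 := by_contra fun k => hn (h3.mem_toFinset.2 k)
    rw [this, map_zero]

theorem exists_comp (w : σ → ℤ) {V : Type} [AddCommGroup V] (l : MvPolynomial σ ℂ →+ V)
    {P : MvPolynomial σ ℂ} (h : ∀ n, l (weightedHomogeneousComponent w n P) = 0) : l P = 0 := by
  rw [← sum_weightedHomogeneousComponent w P,
    finsum_eq_sum _ (weightedHomogeneousComponent_finsupp (w := w) P), map_sum]
  exact Finset.sum_eq_zero fun k _ => h k

/-- A grading of an algebra whose points separate, from a torus action on the points. -/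
theorem exists_grading {D : Type} [CommRing D] [Algebra ℂ D] (x : σ → D)
    (hx : Function.Surjective (aeval x : MvPolynomial σ ℂ →ₐ[ℂ] D))
    (sep : ∀ s, (∀ φ : D →ₐ[ℂ] ℂ, φ s = 0) → s = 0)
    (h : ∀ φ : D →ₐ[ℂ] ℂ, ∀ t, t ≠ 0 → ∃ ψ : D →ₐ[ℂ] ℂ, (fun i => ψ (x i)) = act w t fun i => φ (x i)) :
    ∃ (𝒟 : ℤ → Submodule ℂ D) (_ : GradedAlgebra 𝒟), ∀ i, x i ∈ 𝒟 (w i) := by
  classical
  have e : ∀ (φ : D →ₐ[ℂ] ℂ) P, φ (aeval x P) = eval (fun i => φ (x i)) P := fun φ P => by
    rw [← aeval_eq_eval, ← comp_aeval, AlgHom.comp_apply]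
  have hk : ∀ P, aeval x P = 0 → ∀ n, aeval x (weightedHomogeneousComponent w n P) = 0 :=
    fun P hP n => sep _ fun φ => by
      rw [e]
      refine eval_comp (fun t ht => ?_) n
      obtain ⟨ψ, hψ⟩ := h φ t ht
      rw [← hψ, ← e, hP, map_zero]
  let 𝒟 : ℤ → Submodule ℂ D := fun n =>
    (weightedHomogeneousSubmodule ℂ w n).map (aeval x : MvPolynomial σ ℂ →ₐ[ℂ] D).toLinearMap
  have h1 : DirectSum.IsInternal 𝒟 := by
    rw [DirectSum.isInternal_submodule_iff_iSupIndep_and_iSup_eq_top]
    constructor
    · rw [iSupIndep_iff_finsetSum_eq_zero_imp_eq_zero]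
      intro s v hv h0 i hi
      have h1 : ∀ i, ∃ a : MvPolynomial σ ℂ, a.IsWeightedHomogeneous w i ∧
          (i ∈ s → aeval x a = v i) := by
        intro i
        by_cases hi : i ∈ s
        · obtain ⟨a, ha, h⟩ := hv i hi
          exact ⟨a, ha, fun _ => h⟩
        · exact ⟨0, isWeightedHomogeneous_zero _ _ _, fun h => absurd h hi⟩
      choose a ha hav using h1
      have h3 := hk (∑ j ∈ s, a j) (by
        rw [map_sum, ← h0]
        exact Finset.sum_congr rfl fun j hj => hav j hj) i
      rwa [map_sum, Finset.sum_eq_single i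
        (fun j _ hj => (ha j).weightedHomogeneousComponent_ne i hj.symm) (fun h => absurd hi h),
        (ha i).weightedHomogeneousComponent_same, hav i hi] at h3
    · rw [eq_top_iff]
      rintro s -
      obtain ⟨a, rfl⟩ := hx s
      rw [← sum_weightedHomogeneousComponent w a,
        finsum_eq_sum _ (weightedHomogeneousComponent_finsupp (w := w) a), map_sum]
      exact Submodule.sum_mem _ fun i _ => Submodule.mem_iSup_of_mem i
        ⟨_, weightedHomogeneousComponent_isWeightedHomogeneous i a, rfl⟩
  refine ⟨𝒟, { one_mem := ⟨1, isWeightedHomogeneous_one _ _, map_one (aeval x)⟩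
               mul_mem := ?_
               toDecomposition := h1.chooseDecomposition _ }, fun i =>
    ⟨X i, isWeightedHomogeneous_X _ _ _, aeval_X _ _⟩⟩
  rintro i j _ _ ⟨a, ha, rfl⟩ ⟨b, hb, rfl⟩
  exact ⟨a * b, IsWeightedHomogeneous.mul ha hb, map_mul (aeval x) _ _⟩

end Vale.Agent.P287T.Et
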