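import Vale.Agent.P287T.Et.L0
import Vale.Agent.P287T.Et.Red

/-!
# Local equations of a set which is smooth over a cone
-/

set_option linter.unusedSectionVars false

open MvPolynomial Filter Topology Module

noncomputable section

namespace Vale.Agent.P287T.Et

variable {K N : Type} [Fintype K] [Fintype N]

/-- the weights: `0` on the first group of variables, `1` on the second one -/
abbrev wt (K N : Type) : K ⊕ N → ℤ := Sum.elim 0 1

theorem act_wt (t : ℂ) (b : K ⊕ N → ℂ) :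
    act (wt K N) t b = Sum.elim (b ∘ .inl) (t • b ∘ .inr) := by
  funext i
  rcases i with k | i <;> simp [act]

theorem act_one (t : ℂ) (b : N → ℂ) : act 1 t b = t • b := by
  funext i
  simp [act]

theorem act_act {σ : Type} (w : σ → ℤ) {t : ℂ} (ht : t ≠ 0) (b : σ → ℂ) :
    act w t⁻¹ (act w t b) = b := by
  funext i
  simp [act, zpow_ne_zero _ ht]

theorem Van.comp {σ : Type} {w : σ → ℤ} {A : Set (σ → ℂ)}
    (hA : ∀ b ∈ A, ∀ t, t ≠ 0 → act w t b ∈ A) {P : MvPolynomial σ ℂ} (h : Van A P) (n : ℤ) :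
    Van A (weightedHomogeneousComponent w n P) := fun b hb =>
  eval_comp (fun t ht => h _ (hA b hb t ht)) n

/-- The Zariski closure of an invariant set is invariant. -/
theorem van_act {σ : Type} {w : σ → ℤ} {A : Set (σ → ℂ)}
    (hA : ∀ b ∈ A, ∀ t, t ≠ 0 → act w t b ∈ A) {b : σ → ℂ} (h : ∀ P, Van A P → eval b P = 0) {t : ℂ}
    (ht : t ≠ 0) (P : MvPolynomial σ ℂ) (hP : Van A P) : eval (act w t b) P = 0 :=
  exists_comp w (eval (act w t b) : MvPolynomial σ ℂ →+* ℂ).toAddMonoidHom fun n =>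
    (eval_act (weightedHomogeneousComponent_isWeightedHomogeneous n P) ht b).trans
      (by rw [h _ (hP.comp hA n), mul_zero])

theorem dP_rename (P : MvPolynomial N ℂ) (a v : K ⊕ N → ℂ) :
    dP (rename Sum.inr P) a v = dP P (a ∘ .inr) (v ∘ .inr) := by
  let L : (K ⊕ N → ℂ) →L[ℂ] N → ℂ := .pi fun i => .proj (.inr i)
  have h := ((hasFD' P (a ∘ .inr)).comp a L.hasFDerivAt).fderiv
  have e : (fun y : K ⊕ N → ℂ => eval y (rename Sum.inr P)) = (fun y => eval y P) ∘ L :=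
    funext fun y => eval_rename _ _ _
  rw [dP, e, h]
  rfl

theorem dP_inl (P : MvPolynomial (K ⊕ N) ℂ) (a : K ⊕ N → ℂ) (ξ : K → ℂ) :
    dP P a (Sum.elim ξ 0) = ∑ k, eval a (pderiv (.inl k) P) * ξ k := by
  simp [dP_eq]

/-- the Jacobian determinant of `f` in the variables `j` -/
def jac {κ : Type} [Fintype κ] [DecidableEq κ] (j : κ → K) (f : κ → MvPolynomial (K ⊕ N) ℂ) :
    MvPolynomial (K ⊕ N) ℂ := (Matrix.of fun i l => pderiv (.inl (j i)) (f l)).det

theorem jac_hom {κ : Type} [Fintype κ] [DecidableEq κ] (j : κ → K)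
    {f : κ → MvPolynomial (K ⊕ N) ℂ} {n : κ → ℤ}
    (h : ∀ i, (f i).IsWeightedHomogeneous (wt K N) (n i)) :
    (jac j f).IsWeightedHomogeneous (wt K N) (∑ i, n i) := by
  rw [jac, Matrix.det_apply']
  refine IsWeightedHomogeneous.sum _ _ _ fun s _ => ?_
  have := (isWeightedHomogeneous_C (wt K N) ((Equiv.Perm.sign s : ℤ) : ℂ)).mul
    (IsWeightedHomogeneous.prod Finset.univ (fun i => pderiv (.inl (j (s i))) (f i)) n
      fun i _ => (h i).pderiv (by simp))
  simpa using this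

theorem exists_f {Γ : Set (K ⊕ N → ℂ)} (hs : ∀ b ∈ Γ, ∀ t, t ≠ 0 → act (wt K N) t b ∈ Γ)
    (a : K ⊕ N → ℂ) : ∃ (κ : Type) (_ : Fintype κ) (_ : DecidableEq κ)
      (f : κ → MvPolynomial (K ⊕ N) ℂ) (n : κ → ℤ) (j : κ → K), Function.Injective j ∧
      (∀ i, Van Γ (f i)) ∧ (∀ i, (f i).IsWeightedHomogeneous (wt K N) (n i)) ∧
      eval a (jac j f) ≠ 0 ∧
      ∀ ξ, (∀ i, dP (f i) a (Sum.elim ξ 0) = 0) → Zt Γ a (Sum.elim ξ 0) := by
  classical
  let ι := {P : MvPolynomial (K ⊕ N) ℂ × ℤ // Van Γ P.1 ∧ P.1.IsWeightedHomogeneous (wt K N) P.2}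
  let v : ι → K → ℂ := fun P k => eval a (pderiv (.inl k) P.1.1)
  obtain ⟨κ, e, -, h1, h2⟩ := exists_linearIndependent' ℂ v
  have := h2.finite
  have := Fintype.ofFinite κ
  let A : Matrix κ K ℂ := .of (v ∘ e)
  obtain ⟨κ', j, h3, h4, h5⟩ := exists_linearIndependent' ℂ A.col
  have := h5.finite
  have := Fintype.ofFinite κ'
  have h6 : Fintype.card κ = Fintype.card κ' := by
    rw [← LinearIndependent.rank_matrix (M := A) h2, Matrix.rank_eq_finrank_span_cols, ← h4,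
      finrank_span_eq_card h5]
  let q := Fintype.equivOfCardEq h6
  refine ⟨κ, inferInstance, inferInstance, fun i => (e i).1.1, fun i => (e i).1.2, j ∘ q,
    h3.comp q.injective, fun i => (e i).2.1, fun i => (e i).2.2, ?_, fun ξ hξ P hP => ?_⟩
  · rw [jac, RingHom.map_det, ← isUnit_iff_ne_zero, ← Matrix.isUnit_iff_isUnit_det,
      ← Matrix.linearIndependent_rows_iff_isUnit]
    exact h5.comp q q.injective
  · have h7 : ∀ u ∈ Submodule.span ℂ (Set.range (v ∘ e)), ∑ k, u k * ξ k = 0 := by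
      intro u hu
      induction hu using Submodule.span_induction with
      | mem u hu =>
        obtain ⟨i, rfl⟩ := hu
        exact (dP_inl _ _ _).symm.trans (hξ i)
      | zero => simp
      | add u u' _ _ h h' => simp [add_mul, Finset.sum_add_distrib, h, h']
      | smul c u _ h => simp [mul_assoc, ← Finset.mul_sum, h]
    let l : MvPolynomial (K ⊕ N) ℂ →+ ℂ :=
      { toFun := fun P => ∑ k, eval a (pderiv (.inl k) P) * ξ k
        map_zero' := by simp
        map_add' := fun P Q => by simp [add_mul, Finset.sum_add_distrib] }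
    rw [dP_inl]
    exact exists_comp (wt K N) l fun n => h7 _ (h1 ▸ Submodule.subset_span
      ⟨⟨(_, n), hP.comp hs n, weightedHomogeneousComponent_isWeightedHomogeneous n P⟩, rfl⟩)

/-- Local equations. -/
theorem exists_eqs {Z : Set (N → ℂ)} {Γ : Set (K ⊕ N → ℂ)} {a : K ⊕ N → ℂ}
    (hZ : ∀ z ∈ Z, ∀ t : ℂ, t ≠ 0 → t • z ∈ Z) (sub : ∀ b ∈ Γ, b ∘ .inr ∈ Z)
    (hs : ∀ b ∈ Γ, ∀ t, t ≠ 0 → act (wt K N) t b ∈ Γ)
    (h0 : ∃ h, eval a h ≠ 0 ∧ ∀ b, (∀ P, Van Γ P → eval b P = 0) → eval b h ≠ 0 → b ∈ Γ)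
    (h1 : ∀ w, Zt Γ a w → Crv Γ a w)
    (h2 : ∀ v, Zt Z (a ∘ .inr) v → ∃ w, Crv Γ a w ∧ w ∘ .inr = v) :
    ∃ (κ : Type) (_ : Fintype κ) (_ : DecidableEq κ) (f : κ → MvPolynomial (K ⊕ N) ℂ) (n : κ → ℤ)
      (j : κ → K) (η : MvPolynomial (K ⊕ N) ℂ) (m : ℤ), Function.Injective j ∧
      (∀ i, Van Γ (f i)) ∧ (∀ i, (f i).IsWeightedHomogeneous (wt K N) (n i)) ∧
      η.IsWeightedHomogeneous (wt K N) m ∧ jac j f ∣ η ∧ eval a η ≠ 0 ∧
      ∀ b, (∀ i, eval b (f i) = 0) → (∀ P, Van Z P → eval (b ∘ .inr) P = 0) → eval b η ≠ 0 →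
        b ∈ Γ := by
  classical
  obtain ⟨κ, _, _, f, n, j, k1, k2, k3, k4, k5⟩ := exists_f hs a
  obtain ⟨h, h3, h4⟩ := h0
  let G : Set (MvPolynomial (K ⊕ N) ℂ) := Set.range f ∪ rename Sum.inr '' {P | Van Z P}
  have hG : ∀ b, (∀ P ∈ G, eval b P = 0) → ∀ P ∈ Ideal.span G, eval b P = 0 := fun b hb =>
    (Ideal.span_le (I := RingHom.ker (eval b))).2 hb
  have h5 : ∀ g, Van Γ g → ∃ s, eval a s ≠ 0 ∧ s * g ∈ Ideal.span G := fun g hg =>
    l0 (fun P hP b hb => hG b (by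
      rintro _ (⟨i, rfl⟩ | ⟨P, hP, rfl⟩)
      · exact k2 i b hb
      · exact (eval_rename _ _ _).trans (hP _ (sub b hb))) P hP) (fun v hv => by
      obtain ⟨w, w1, w2⟩ := h2 (v ∘ .inr) fun P hP =>
        (dP_rename P a v).symm.trans (hv _ (Ideal.subset_span (.inr ⟨P, hP, rfl⟩)))
      have e : v - w = Sum.elim ((v - w) ∘ .inl) 0 := by
        funext i
        rcases i with k | i
        · rfl
        · exact sub_eq_zero.2 (congrFun w2 i).symm
      have h6 := k5 ((v - w) ∘ .inl) fun i => by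
        rw [← e, map_sub, hv _ (Ideal.subset_span (.inl ⟨i, rfl⟩)), w1.zt _ (k2 i), sub_zero]
      refine h1 v fun P hP => ?_
      have h7 := h6 P hP
      rwa [← e, map_sub, w1.zt P hP, sub_zero] at h7) hg
  choose! s s1 s2 using h5
  obtain ⟨F, hF⟩ := IsNoetherian.noetherian (vanishingIdeal ℂ Γ : Ideal (MvPolynomial (K ⊕ N) ℂ))
  have hv : ∀ P, P ∈ vanishingIdeal ℂ Γ ↔ Van Γ P := fun P => by
    rw [mem_vanishingIdeal_iff]
    simp only [aeval_eq_eval, Van]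
  have hF' : ∀ g ∈ F, Van Γ g := fun g hg => (hv g).1 (hF ▸ Submodule.subset_span hg)
  obtain ⟨m, hm⟩ : ∃ m, eval a (weightedHomogeneousComponent (wt K N) m (h * ∏ g ∈ F, s g)) ≠ 0 := by
    by_contra! k
    have := exists_comp (wt K N) (eval a : MvPolynomial (K ⊕ N) ℂ →+* ℂ).toAddMonoidHom k
    refine mul_ne_zero h3 (Finset.prod_ne_zero_iff.2 fun g hg => s1 g (hF' g hg)) ?_
    simpa using this
  refine ⟨κ, inferInstance, inferInstance, f, n, j, jac j f * _, _, k1, k2, k3,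
    (jac_hom j k3).mul (weightedHomogeneousComponent_isWeightedHomogeneous m _), dvd_mul_right _ _,
    by rw [map_mul]; exact mul_ne_zero k4 hm, fun b b1 b2 b3 => ?_⟩
  rw [map_mul] at b3
  obtain ⟨t, ht, h6⟩ : ∃ t, t ≠ 0 ∧ eval (act (wt K N) t b) (h * ∏ g ∈ F, s g) ≠ 0 := by
    by_contra! k
    exact right_ne_zero_of_mul b3 (eval_comp k m)
  rw [map_mul, map_prod] at h6
  rw [← act_act (wt K N) ht b]
  refine hs _ (h4 _ (fun P hP => ?_) (left_ne_zero_of_mul h6)) _ (inv_ne_zero ht)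
  refine (Ideal.span_le (I := RingHom.ker (eval (act (wt K N) t b)))).2 (fun g hg => ?_)
    (hF.ge ((hv P).2 hP))
  have h7 := hG (act (wt K N) t b) (by
    rintro _ (⟨i, rfl⟩ | ⟨P, hP, rfl⟩)
    · rw [eval_act (k3 i) ht, b1, mul_zero]
    · exact (eval_rename _ _ _).trans
        (van_act (w := 1) (fun z hz t ht => act_one t z ▸ hZ z hz t ht) b2 ht P hP)) _
    (s2 g (hF' g hg))
  rw [map_mul] at h7
  exact (mul_eq_zero.1 h7).resolve_left
    (Finset.prod_ne_zero_iff.1 (right_ne_zero_of_mul h6) g hg)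

end Vale.Agent.P287T.Et
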