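import Vale.Agent.P287T.Et.RcM
import Vale.Agent.P287T.Et.St
import Vale.Agent.P287T.Et.Loc
import Vale.Agent.P287T.Df.Cx
import Vale.Agent.P287Q.Pv.Prm

/-!
# Tangent vectors of the graph of a family of matrix factorizations
-/

set_option linter.unusedSectionVars false

open MvPolynomial Module Filter Topology

noncomputable section

namespace Vale.Agent.P287T.Et

open Vale.Agent.P287T.Cy Vale.Agent.P287T.Df Vale.Agent.P287T.Au Vale.Agent.P287Q
  Vale.Agent.P287Q.Cub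

/-- An analytic vector which lies in the kernel wherever the rank does not go up. -/
theorem exists_ls {P E F : Type} [NormedAddCommGroup P] [NormedSpace ℂ P] [CompleteSpace P]
    [NormedAddCommGroup E] [NormedSpace ℂ E] [FiniteDimensional ℂ E] [NormedAddCommGroup F]
    [NormedSpace ℂ F] [FiniteDimensional ℂ F] {δ : P → E →L[ℂ] F} {a : P} (h : AnalyticAt ℂ δ a)
    {e : E} (he : δ a e = 0) : ∃ κ : P → E, AnalyticAt ℂ κ a ∧ κ a = e ∧
      ∀ᶠ x in 𝓝 a, finrank ℂ (δ x).range ≤ finrank ℂ (δ a).range → δ x (κ x) = 0 := by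
  let R := (δ a).range
  have : CompleteSpace R := FiniteDimensional.complete ℂ _
  obtain ⟨ρ, hρ⟩ := R.subtype.exists_leftInverse_of_injective R.ker_subtype
  obtain ⟨σ, hσ⟩ := (δ a).toLinearMap.rangeRestrict.exists_rightInverse_of_surjective
    (LinearMap.range_rangeRestrict _)
  let ρ' := LinearMap.toContinuousLinearMap ρ
  let σ' := LinearMap.toContinuousLinearMap σ
  have e1 : ∀ r, ρ' (δ a (σ' r)) = r := fun r =>
    (congrArg ρ (congrArg Subtype.val (LinearMap.congr_fun hσ r))).trans (LinearMap.congr_fun hρ r)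
  obtain ⟨ψ, p1, p2, p3, -⟩ := abs_ift (Φ := fun x : P × R => ρ' (δ x.1 (e + σ' x.2))) (u := (a, 0))
    ((ρ'.analyticAt _).comp (((ContinuousLinearMap.id ℂ (E →L[ℂ] F)).analyticAt_bilinear _).comp₂
      (h.comp_of_eq analyticAt_fst rfl)
      (analyticAt_const.add ((σ'.analyticAt _).comp analyticAt_snd))))
    (D := .id ℂ R) ((hasFDerivAt_id _).congr_of_eventuallyEq (.of_forall fun r => by
      simp only [map_add, he, zero_add, e1, id])) ⟨.refl ℂ R, rfl⟩
  refine ⟨fun x => e + σ' (ψ x), analyticAt_const.add ((σ'.analyticAt _).comp p1), by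
    simp only [show ψ a = 0 from p2, map_zero, add_zero], ?_⟩
  filter_upwards [p3, abs_inj (A := fun x => ρ' ∘L δ x ∘L σ') (continuousAt_const.clm_comp
    (h.continuousAt.clm_comp continuousAt_const)) fun r k => (e1 r).symm.trans k] with x k1 k2 k3
  have k4 : ((δ x).toLinearMap ∘ₗ σ).range = (δ x).range := by
    refine Submodule.eq_of_le_of_finrank_le (LinearMap.range_comp_le_range _ _) (k3.trans ?_)
    exact (LinearMap.finrank_range_of_inj ((injective_iff_map_eq_zero _).2 fun r k =>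
      k2 r ((congrArg ρ k).trans (map_zero _)))).ge
  obtain ⟨r, hr⟩ := k4.ge ⟨e + σ' (ψ x), rfl⟩
  have k5 : r = 0 := k2 r ((congrArg ρ hr).trans (k1.trans (by simp [he])))
  exact hr.symm.trans (by rw [k5, map_zero])

theorem crv_cone {N : Type} [Fintype N] {Z : Set (N → ℂ)} {n : ℕ} (h : PV (π₀ N) Z n) {z v : N → ℂ}
    (hz : z ∈ Z) (hv : Zt Z z v) : Crv Z z v := by
  obtain ⟨ψ, p, rfl⟩ := (h.mfd z hz).prm
  obtain ⟨t, rfl⟩ := p.mem_tn.1 (Chow1.jac h hz hv)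
  have a : HasDerivAt (fun s : ℂ => s • t) t 0 :=
    ((hasDerivAt_id (0 : ℂ)).smul_const t).congr_deriv (one_smul _ _)
  refine ⟨fun s => ψ (s • t), by simp only [zero_smul],
    p.an.differentiableAt.hasFDerivAt.comp_hasDerivAt_of_eq _ a (zero_smul _ _).symm, ?_⟩
  exact (a.continuousAt.tendsto.mono_right (by rw [zero_smul])).eventually p.mem

section mf

variable {ι : Type} [Fintype ι] [DecidableEq ι] {p : ι → ℤ}

/-- the differential as a continuous linear map -/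
def dlL (d d' : MM p p 3) : MM p p 0 →L[ℂ] MM p p 3 :=
  mulL p p p (add_zero 3) d' - (mulL p p p (zero_add 3)).flip d

theorem dlL_apply (d d' : MM p p 3) (g : MM p p 0) : dlL d d' g = dl d d' g := rfl

theorem rk_dlL (d d' : MM p p 3) : finrank ℂ (dlL d d').range = rk d d' := rfl

theorem rk_eq (d d' : MM p p 3) : rk d d' = finrank ℂ (BB p d.1 p d'.1 3) := by
  rw [finrank_BB (zero_add 3) (d, d')]
  let L := (mulB p p p (add_zero 3)).flip ⟨Dt.eps p, Dt.eps_mem p⟩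
  have : (dL p p (zero_add 3) (d, d')).range = (dl d d').range.map L := by
    rw [← LinearMap.range_comp]
    rfl
  rw [this, rk]
  refine (Submodule.equivMapOfInjective L (fun g h e => Subtype.ext ?_) _).finrank_eq
  exact (mul_eps_eps g.1).symm.trans ((congrArg (·.1 * Dt.eps p) e).trans (mul_eps_eps h.1))

/-- the inverse of `1 + s g` -/
theorem exists_inv (g : MM p p 0) : ∃ k : ℂ → MM p p 0, k 0 = oneM p ∧ HasDerivAt k (-g) 0 ∧
    ∀ᶠ s in 𝓝 0, (oneM p + s • g).1 * (k s).1 = 1 := by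
  have e1 : ∀ k, mulL p p p (add_zero 0) (oneM p) k = k := fun k => Subtype.ext (Matrix.one_mul _)
  have e2 : mulL p p p (add_zero 0) g (oneM p) = g := Subtype.ext (Matrix.mul_one _)
  obtain ⟨k, p1, p2, p3, -⟩ := abs_ift (Φ := fun x : ℂ × MM p p 0 =>
    mulL p p p (add_zero 0) (oneM p + x.1 • g) x.2) (u := (0, oneM p))
    (((mulL p p p (add_zero 0)).analyticAt_bilinear _).comp₂
      (analyticAt_const.add (analyticAt_fst.smul analyticAt_const)) analyticAt_snd)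
    (D := .id ℂ _) ((hasFDerivAt_id _).congr_of_eventuallyEq (.of_forall fun r => by
      simp only [zero_smul, add_zero, e1, id])) ⟨.refl ℂ _, rfl⟩
  simp only [zero_smul, add_zero, e1] at p1 p2 p3
  have a : HasDerivAt (fun s : ℂ => oneM p + s • g) g 0 :=
    (((hasDerivAt_id (0 : ℂ)).smul_const g).const_add (oneM p)).congr_deriv (one_smul _ _)
  have b := p1.differentiableAt.hasDerivAt
  have c := (((mulL p p p (add_zero 0)).hasFDerivAt.comp_hasDerivAt 0 a).clm_apply b).unique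
    ((hasDerivAt_const _ _).congr_of_eventuallyEq p3)
  simp only [Function.comp_apply, zero_smul, add_zero, e1, p2, e2] at c
  exact ⟨k, p2, eq_neg_of_add_eq_zero_right c ▸ b, p3.mono fun s k => congrArg Subtype.val k⟩

end mf

variable {W : S6} (C : Cf W) {a : Kp C.p ⊕ Fin C.ν → ℂ}

/-- A local family through a given member. -/
theorem exists_u {z : Fin C.ν → ℂ} (hz : z ∈ C.Z) {d : MM C.p C.p 3} (hd : d.1 ∈ C.O z) :
    ∃ u : (Fin C.ν → ℂ) → MM C.p C.p 3, AnalyticAt ℂ u z ∧ u z = d ∧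
      ∀ᶠ y in 𝓝[C.Z] z, (u y).1 ∈ C.O y := by
  obtain ⟨u, h1, h2, -⟩ := C.loc z hz
  obtain ⟨g, g1, g', g2, g3, g4, g5⟩ := ((C.orb z hz).conj _ (h2.self_of_nhdsWithin hz) _).1 hd
  refine ⟨fun y => mulL _ _ _ (add_zero 3) (mulL _ _ _ (zero_add 3) ⟨g, g1⟩ (u y)) ⟨g', g2⟩,
    (((mulL _ _ _ (add_zero 3)).flip ⟨g', g2⟩).analyticAt _).comp
      (((mulL _ _ _ (zero_add 3) ⟨g, g1⟩).analyticAt _).comp h1), Subtype.ext ?_, ?_⟩
  · change g * (u z).1 * g' = _
    rw [g5, Matrix.mul_assoc, g3, Matrix.mul_one]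
  · filter_upwards [h2, self_mem_nhdsWithin] with y b c
    refine ((C.orb y c).conj _ b _).2 ⟨g, g1, g', g2, g3, g4, ?_⟩
    change _ = g * (u y).1 * g' * g
    rw [Matrix.mul_assoc, g4, Matrix.mul_one]

/-- The rank is locally constant. -/
theorem rk_loc {z : Fin C.ν → ℂ} (hz : z ∈ C.Z) {u : (Fin C.ν → ℂ) → MM C.p C.p 3}
    (h1 : ContinuousAt u z) (h2 : ∀ᶠ y in 𝓝[C.Z] z, (u y).1 ∈ C.O y) :
    ∀ᶠ y in 𝓝[C.Z] z, rk (u y) (u y) = rk (u z) (u z) := by
  have k : ∀ y ∈ C.Z, (u y).1 ∈ C.O y → 1 + finrank ℂ (BB C.p (u y).1 C.p (u y).1 0) +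
      rk (u y) (u y) = finrank ℂ (MM C.p C.p 0) := fun y b c => by
    have e := finrank_HH ((C.orb y b).mf _ c) ((C.orb y b).mf _ c) 0
    have f := (C.orb y b).dim _ c 0
    rw [mul_zero, if_pos (.inl rfl)] at f
    rw [rk_eq, ← e, f, zero_add]
  have t := (h1.prodMk h1).tendsto.mono_left (nhdsWithin_le_nhds (s := C.Z))
  filter_upwards [h2, self_mem_nhdsWithin, t.eventually (ev_BB (u z, u z) 0),
    t.eventually (ev_BB (u z, u z) 3)] with y b c e f
  have k1 := k y c b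
  have k2 := k z hz (h2.self_of_nhdsWithin hz)
  rw [rk_eq] at k1 k2
  rw [rk_eq, rk_eq]
  omega

theorem crv_G {u : (Fin C.ν → ℂ) → MM C.p C.p 3} (h1 : AnalyticAt ℂ u (a ∘ .inr))
    (h0 : u (a ∘ .inr) = dw C a) (h2 : ∀ᶠ y in 𝓝[C.Z] (a ∘ .inr), (u y).1 ∈ C.O y) {v : Fin C.ν → ℂ}
    (hv : Crv C.Z (a ∘ .inr) v) (g : MM C.p C.p 0) : Crv (G C) a
      (Sum.elim (co C.p (fderiv ℂ u (a ∘ .inr) v - dl (dw C a) (dw C a) g)) v) := by
  obtain ⟨y, y0, y1, y2⟩ := hv
  obtain ⟨k, k0, k1, k2⟩ := exists_inv g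
  have b1 : HasDerivAt (fun s : ℂ => oneM C.p + s • g) g 0 :=
    (((hasDerivAt_id (0 : ℂ)).smul_const g).const_add (oneM C.p)).congr_deriv (one_smul _ _)
  have b2 := h1.differentiableAt.hasFDerivAt.comp_hasDerivAt_of_eq _ y1 y0.symm
  have b3 := ((mulL C.p C.p C.p (add_zero 3)).hasFDerivAt.comp_hasDerivAt 0
    (((mulL C.p C.p C.p (zero_add 3)).hasFDerivAt.comp_hasDerivAt 0 b1).clm_apply b2)).clm_apply k1
  have b4 := (LinearMap.toContinuousLinearMap (co C.p).toLinearMap).hasFDerivAt.comp_hasDerivAt 0 b3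
  refine ⟨fun s => Sum.elim (co C.p (mulL _ _ _ (add_zero 3)
    (mulL _ _ _ (zero_add 3) (oneM C.p + s • g) (u (y s))) (k s))) (y s), ?_,
    hasDerivAt_pi.2 fun j => ?_, ?_⟩
  · refine Eq.trans ?_ (Sum.elim_comp_inl_inr a)
    refine congrArg₂ Sum.elim ((co C.p).eq_symm_apply.1 (Subtype.ext ?_)) y0
    simp only [zero_smul, add_zero, y0, h0, k0, mulL_val, oneM, Matrix.one_mul, Matrix.mul_one, dw]
  · rcases j with j | j
    · refine (hasDerivAt_pi.1 b4 j).congr_deriv (congrArg (co C.p · j) (Subtype.ext ?_))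
      simp only [Function.comp_apply, zero_smul, add_zero, y0, h0, k0]
      simp only [map_add, map_neg, add_apply, Submodule.coe_add, Submodule.coe_neg, mulL_val, oneM,
        Matrix.one_mul, Matrix.mul_one, Submodule.coe_sub, dl_val]
      abel
    · exact hasDerivAt_pi.1 y1 j
  · have t : Tendsto y (𝓝 0) (𝓝[C.Z] (a ∘ .inr)) :=
      tendsto_nhdsWithin_iff.2 ⟨y0 ▸ y1.continuousAt, y2⟩
    filter_upwards [y2, k2, t.eventually h2] with s c1 c2 c3
    refine ⟨c1, ?_⟩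
    rw [dw, Sum.elim_comp_inl, LinearEquiv.symm_apply_apply]
    refine ((C.orb _ c1).conj _ c3 _).2 ⟨_, (oneM C.p + s • g).2, _, (k s).2, c2,
      mul_eq_one_comm.1 c2, ?_⟩
    rw [mulL_val, mulL_val, Matrix.mul_assoc, mul_eq_one_comm.1 c2, Matrix.mul_one]

theorem g_h2 (ha : a ∈ G C) (v : Fin C.ν → ℂ) (hv : Zt C.Z (a ∘ .inr) v) :
    ∃ w, Crv (G C) a w ∧ w ∘ .inr = v :=
  let ⟨_, h1, h0, h2⟩ := exists_u C ha.1 ha.2
  ⟨_, crv_G C h1 h0 h2 (crv_cone C.pv ha.1 hv) 0, rfl⟩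

theorem g_h1 (hs : G C ⊆ T1 C) (hA : Alg (T1 C) a) (ha : a ∈ G C) (w : Kp C.p ⊕ Fin C.ν → ℂ)
    (hw : Zt (G C) a w) : Crv (G C) a w := by
  obtain ⟨u, h1, h0, h2⟩ := exists_u C ha.1 ha.2
  let L : (Kp C.p ⊕ Fin C.ν → ℂ) →L[ℂ] Fin C.ν → ℂ := .pi fun i => .proj (.inr i)
  let M : (Kp C.p ⊕ Fin C.ν → ℂ) →L[ℂ] MM C.p C.p 3 :=
    LinearMap.toContinuousLinearMap (co C.p).symm.toLinearMap ∘L .pi fun i => .proj (.inl i)
  have a1 : AnalyticAt ℂ (fun x : Kp C.p ⊕ Fin C.ν → ℂ => dlL (u (x ∘ .inr)) (dw C x)) a :=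
    (((mulL C.p C.p C.p (add_zero 3)).analyticAt _).comp (M.analyticAt a)).sub
      (((mulL C.p C.p C.p (zero_add 3)).flip.analyticAt _).comp (h1.comp_of_eq (L.analyticAt a) rfl))
  have a2 : HasFDerivAt (fun x : Kp C.p ⊕ Fin C.ν → ℂ => dlL (u (x ∘ .inr)) (dw C x)) _ a :=
    (mulL C.p C.p C.p (add_zero 3) ∘L M).hasFDerivAt.sub
      ((mulL C.p C.p C.p (zero_add 3)).flip.hasFDerivAt.comp a
        (h1.differentiableAt.hasFDerivAt.comp a L.hasFDerivAt))
  obtain ⟨κ, k1, k2, k3⟩ := exists_ls a1 (e := oneM C.p) (Subtype.ext (by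
    rw [dlL_apply, dl_val, h0]
    simp only [oneM, Matrix.one_mul, Matrix.mul_one, sub_self, Submodule.coe_zero]))
  have a3 := a2.clm_apply k1.differentiableAt.hasFDerivAt
  have a4 : AnalyticAt ℂ (fun x : Kp C.p ⊕ Fin C.ν → ℂ => dlL (u (x ∘ .inr)) (dw C x) (κ x)) a :=
    ((ContinuousLinearMap.id ℂ (_ →L[ℂ] _)).analyticAt_bilinear _).comp₂ a1 k1
  have a5 : ∀ᶠ x in 𝓝 a, x ∈ T1 C → dlL (u (x ∘ .inr)) (dw C x) (κ x) = 0 := by
    filter_upwards [k3, L.continuous.continuousAt.eventually (eventually_nhdsWithin_iff.1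
      (h2.and (rk_loc C ha.1 h1.continuousAt h2)))] with x b c d
    refine b ((d.2 _ (c d.1).1).trans_eq ((c d.1).2.trans ?_))
    rw [rk_dlL, ← h0]
  have a6 : fderiv ℂ (fun x : Kp C.p ⊕ Fin C.ν → ℂ => dlL (u (x ∘ .inr)) (dw C x) (κ x)) a w = 0 :=
    cfM_sep _ _ _ _ fun m => by
      let φ := LinearMap.toContinuousLinearMap (cfM C.p C.p 3 m)
      have := hA.2 (hs ha) _ ((φ.analyticAt _).comp a4) (a5.mono fun x b c =>
        (congrArg φ (b c)).trans (map_zero _)) w fun P b => hw P fun x c => b x (hs c)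
      rwa [(φ.hasFDerivAt.comp a a4.differentiableAt.hasFDerivAt).fderiv] at this
  have a7 := crv_G C h1 h0 h2 (crv_cone C.pv ha.1 (v := w ∘ .inr) fun P b =>
    (dP_rename P a w).symm.trans (hw _ fun x c => (eval_rename _ _ _).trans (b _ c.1)))
    (fderiv ℂ κ a w)
  rw [a3.fderiv, k2, h0] at a6
  refine (congrArg₂ Sum.elim ((co C.p).eq_symm_apply.1 ?_) rfl).trans (Sum.elim_comp_inl_inr w) ▸ a7
  refine (eq_of_sub_eq_zero (Eq.trans ?_ a6)).symm
  refine Subtype.ext ?_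
  change _ = (dl (dw C a) (dw C a) (fderiv ℂ κ a w)).1 + ((dw C w).1 * (oneM C.p).1 -
    (oneM C.p).1 * (fderiv ℂ u (a ∘ .inr) (w ∘ .inr)).1)
  simp only [oneM, Matrix.one_mul, Matrix.mul_one, Submodule.coe_sub, dw]
  abel

end Vale.Agent.P287T.Et
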