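import Vale.Agent.P287T.Et.Rc
import Vale.Agent.P287T.Et.Tn
import Vale.Agent.P287T.Et.Asm2

/-!
# Smooth algebraic charts of a surface of matrix factorizations
-/

namespace Vale.Agent.P287T.Et

open Vale.Agent.P287T.Cy Vale.Agent.P287T.Au

/-- A chart through a given point of the graph. -/
theorem chart_G {W : S6} {C : Cf W} {a : Kp C.p ⊕ Fin C.ν → ℂ} (ha : a ∈ G C) :
    Nonempty (Ch C.I (G C) a) :=
  ch_cc cc ha (g_h1 C G_sub (alg_T1 cc (cf_ne C ha.1)) ha) (g_h2 C ha)

/-- **ET** -/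
theorem stEt : StEt := stEt_of_ch fun _ _ _ => chart_G

end Vale.Agent.P287T.Et
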