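import Vale.Agent.P287T.Et.RcS
import Vale.Agent.P301Z.Al.Chow
import Vale.Agent.P301Z.Al.Cone
import Vale.Agent.P301Z.Al.Homp

/-!
# The relative theorem of Chow
-/

open Set Filter Topology

noncomputable section

namespace Vale.Agent.P287T.Et

open Vale.Agent.P281Z Vale.Agent.P301Z.Al

/-- The theorem of Chow for analytic cones. -/
theorem cc : CC := by
  intro M C hs ha v hv
  obtain _ | K := M
  · exact (hv (Subsingleton.elim _ _)).elim
  obtain ⟨S⟩ := Pb.psex K
  let A : Set S.P.X := {p | ∃ w ∈ C, w ≠ 0 ∧ S.pt w = p}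
  have e : ∀ w ≠ 0, S.pt w ∈ A ↔ w ∈ C := fun w hw => ⟨fun ⟨x, a, b, c⟩ => by
    obtain ⟨d, rfl⟩ := (S.pt_eq_iff hw b).1 c.symm
    exact hs x a d (smul_ne_zero_iff.1 hw).1, fun a => ⟨w, a, hw, rfl⟩⟩
  have hA : An K A := .of_fin fun p => by
    obtain ⟨h, hp⟩ := S.lb.cover p
    obtain ⟨ι, _, g, g1, g2⟩ := ha _ (S.xnz h p hp)
    have a := AnV.pi (S.xhol hp)
    refine ⟨ι, inferInstance, fun i q => g i (S.x h q), fun i => a.cmp (g1 i), ?_⟩
    filter_upwards [a.cont.eventually g2, lb_near S.lb hp] with q b c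
    rw [← b, ← e _ (S.xnz h q c), S.pt_x' c]
  have sub : ∀ P ∈ J (cone S A), ∀ x ∈ C, MvPolynomial.eval x P = 0 := fun P a x b =>
    a.2 x (or_iff_not_imp_left.2 fun c => (e x c).2 b)
  obtain ⟨c1, c2⟩ := chow_of cone_an homp K S A hA v
  refine ⟨fun a => (e v hv).1 ((c1 fun P b => a P (sub P b)).resolve_left hv),
    fun a h b c ξ d => c2 (.inr ((e v hv).2 a)) h b ?_ ξ fun P k => d P (sub P k)⟩
  filter_upwards [c, isOpen_ne.mem_nhds hv] with w k1 k2 k3 using
    k1 ((e w k2).1 (k3.resolve_left k2))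

/-- **The relative theorem of Chow.** -/
theorem rc : RC := rC_of cc

/-- The same over a smooth cone. -/
theorem stRc : StRc := rc_of cc

end Vale.Agent.P287T.Et
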