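import Vale.Agent.P287T.Et.RcDefs

/-!
# The theorem of Chow for analytic multicones, from the theorem for analytic cones
-/

set_option linter.unusedSectionVars false

open Set Filter Topology Function MvPolynomial

noncomputable section

namespace Vale.Agent.P287T.Et

open Vale.Agent.P287Q P300LC P269 P269.Holo Chow1 Classical

/-- `C` is analytic near `y`. -/
def AnL {W : Type} [NormedAddCommGroup W] [NormedSpace ℂ W] (C : Set W) (y : W) : Prop :=
  ∃ (ι : Type) (_ : Finite ι) (g : ι → W → ℂ), (∀ i, AnalyticAt ℂ (g i) y) ∧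
    ∀ᶠ w in 𝓝 y, w ∈ C ↔ ∀ i, g i w = 0

/-- `C` is cut out by polynomials at `v`, with the Jacobian clause. -/
def Alg {J : Type} [Fintype J] (C : Set (J → ℂ)) (v : J → ℂ) : Prop :=
  ((∀ G : MvPolynomial J ℂ, (∀ x ∈ C, eval x G = 0) → eval v G = 0) → v ∈ C) ∧
    (v ∈ C → ∀ h : (J → ℂ) → ℂ, AnalyticAt ℂ h v → (∀ᶠ w in 𝓝 v, w ∈ C → h w = 0) →
      ∀ ξ, (∀ G : MvPolynomial J ℂ, (∀ x ∈ C, eval x G = 0) →
        fderiv ℂ (fun x => eval x G) v ξ = 0) → fderiv ℂ h v ξ = 0)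

/-- The theorem of Chow for analytic cones. -/
def CC : Prop := ∀ (M : ℕ) (C : Set (Fin M → ℂ)), (∀ v ∈ C, ∀ c : ℂ, c ≠ 0 → c • v ∈ C) →
  (∀ v ≠ 0, AnL C v) → ∀ v ≠ 0, Alg C v

variable {J R : Type} [Fintype J] [Fintype R] {π : J → R} {C : Set (J → ℂ)} {y : J → ℂ}

namespace RcM

theorem upd_self (s : Sec π) (r : R) : upd s (s.1 r) = s :=
  Subtype.ext (by simp [upd, s.2])

theorem ps_mem (h : ∀ t, IsUnit t → ∀ y ∈ C, scl π t y ∈ C) (s : Sec π) (hs : ∀ r, y (s.1 r) ≠ 0)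
    {w : Vn (Fintype.card (Sec π))} (a : w (en π s) ≠ 0) (b : w ∈ cone π C) :
    ps s y w ∈ C ∧ w = (w (en π s) / ∏ r, y (s.1 r)) • sg π (ps s y w) := by
  obtain ⟨d, hd, z, hz, rfl⟩ := b
  rw [Pi.smul_apply, sg_en] at a
  have a6 := right_ne_zero_of_mul a
  have a2 := fun r => Finset.prod_ne_zero_iff.1 a6 r (Finset.mem_univ _)
  have a5 := Finset.prod_ne_zero_iff.2 fun r (_ : r ∈ Finset.univ) => hs r
  rw [ps_sg s a2 hd]
  refine ⟨h _ (unit_of fun r => div_ne_zero (hs r) (a2 r)) z hz, ?_⟩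
  rw [sg_scl, smul_smul, Finset.prod_div_distrib, Pi.smul_apply, sg_en, smul_eq_mul]
  refine congrArg (· • sg π z) ?_
  field_simp

theorem anl (h : ∀ t, IsUnit t → ∀ y ∈ C, scl π t y ∈ C) (ha : ∀ y ∈ Ust π, AnL C y)
    {w : Vn (Fintype.card (Sec π))} (hw : w ≠ 0) : AnL (cone π C) w := by
  obtain ⟨m, hm⟩ := ne_iff.1 hw
  obtain ⟨s, rfl⟩ := (en π).surjective m
  have an := an_ps (y := 1) s hm
  obtain ⟨ι, _, g, g1, g2⟩ := ha (ps s 1 w) fun r => ⟨s.1 r, s.2 r, by
    rw [ps, upd_self]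
    exact div_ne_zero (mul_ne_zero one_ne_zero hm) hm⟩
  refine ⟨ι ⊕ Fin _, inferInstance, Sum.elim (fun i x => g i (ps s 1 x))
    fun m x => (x - x (en π s) • sg π (ps s 1 x)) m, Sum.forall.2 ⟨fun i => (g1 i).comp an,
      analyticAt_pi_iff.1 (analyticAt_id.sub (((ContinuousLinearMap.proj (R := ℂ)
        (φ := fun _ => ℂ) _).analyticAt w).smul ((an_sg _).comp an)))⟩, ?_⟩
  filter_upwards [an.continuousAt.eventually g2,
    (continuous_apply (en π s)).continuousAt.eventually_ne hm] with x a b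
  rw [Sum.forall]
  refine ⟨fun k => ?_, fun k => ⟨_, b, _, a.2 k.1, sub_eq_zero.1 (funext k.2)⟩⟩
  have := ps_mem (y := 1) h s (fun _ => one_ne_zero) b k
  simp only [Pi.one_apply, Finset.prod_const_one, div_one] at this
  exact ⟨a.1 this.1, congrFun (sub_eq_zero.2 this.2)⟩

end RcM

open RcM in
/-- The theorem of Chow for analytic multicones. -/
theorem alg_multi (hc : CC) (h : ∀ t, IsUnit t → ∀ y ∈ C, scl π t y ∈ C)
    (ha : ∀ y ∈ Ust π, AnL C y) (hy : y ∈ Ust π) : Alg C y := by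
  obtain ⟨s, hs⟩ := exists_sec hy
  have v0 : sg π y (en π s) ≠ 0 := by
    rw [sg_en]
    exact Finset.prod_ne_zero_iff.2 fun r _ => hs r
  have p1 : ps s y (sg π y) = y := by
    rw [← one_smul ℂ (sg π y), ps_sg s hs one_ne_zero]
    exact funext fun j => by rw [scl, div_self (hs _), one_mul]
  obtain ⟨c1, c2⟩ := hc _ (cone π C) (by
    rintro _ ⟨c, hc, y, hy, rfl⟩ s hs
    exact ⟨_, mul_ne_zero hs hc, y, hy, smul_smul _ _ _⟩) (fun w => anl h ha) (sg π y)
    fun e => v0 (congrFun e _)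
  have pull : ∀ G : Pn (Fintype.card (Sec π)), (∀ x ∈ cone π C, eval x G = 0) →
      ∃ P : MvPolynomial J ℂ, (∀ x ∈ C, eval x P = 0) ∧
        (fun y => eval y P) = fun y => ev G (sg π y) := fun G g =>
    (exists_pull G).imp fun P k => ⟨fun x hx =>
      (congrFun k x).trans (g _ ⟨1, one_ne_zero, x, hx, (one_smul _ _).symm⟩), k⟩
  refine ⟨fun e => p1 ▸ (ps_mem h s hs v0 (c1 fun G g => ?_)).1, fun hC Φ h1 h2 κ e => ?_⟩
  · obtain ⟨P, k1, k2⟩ := pull G g
    exact (congrFun k2 y).symm.trans (e P k1)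
  have t1 : Tendsto (ps s y) (𝓝 (sg π y)) (𝓝 y) := by
    simpa only [ContinuousAt, p1] using (an_ps (y := y) s v0).continuousAt
  have d2 := c2 ⟨1, one_ne_zero, y, hC, (one_smul _ _).symm⟩ (fun w => Φ (ps s y w))
    (h1.comp_of_eq (an_ps s v0) p1) (by
      filter_upwards [t1.eventually h2, (continuous_apply (en π s)).continuousAt.eventually_ne v0]
        with w a b c using a (ps_mem h s hs b c).1) (fderiv ℂ (sg π) y κ) fun G g => by
      obtain ⟨P, k1, k2⟩ := pull G g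
      have := e P k1
      rwa [k2, fderiv_comp_an (an_ev G _) (an_sg y)] at this
  let F := fun x : (J → ℂ) × Vn (Fintype.card (Sec π)) =>
    scl π (fun r => x.1 (s.1 r) / y (s.1 r)) (ps s y x.2)
  have hF : AnalyticAt ℂ F (y, sg π y) := analyticAt_pi_iff.2 fun j =>
    ((((ContinuousLinearMap.proj (R := ℂ) (φ := fun _ : J => ℂ) _).analyticAt _).comp
      analyticAt_fst).div analyticAt_const (hs _)).mul
      (analyticAt_pi_iff.1 ((an_ps s v0).comp_of_eq analyticAt_snd rfl) j)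
  have ne : ∀ᶠ x in 𝓝 y, ∀ r, x (s.1 r) ≠ 0 :=
    eventually_all.2 fun r => (continuous_apply _).continuousAt.eventually_ne (hs r)
  have f1 : ∀ᶠ x in 𝓝 y, F (x, sg π x) = x := ne.mono fun x a => funext fun j => by
    have b := ps_sg (y := y) s a one_ne_zero
    rw [one_smul] at b
    have := a (π j)
    have := hs (π j)
    simp only [F, b, scl]
    field_simp
  have hH : AnalyticAt ℂ (fun x => Φ (F x)) (y, sg π y) := h1.comp_of_eq hF f1.self_of_nhds
  have b0 : (fun x => Φ (F (x, sg π x))) =ᶠ[𝓝 y] Φ := f1.mono fun x a => congrArg Φ a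
  have b1 : (fun x => Φ (F (x, sg π y))) =ᶠ[𝓝 y] fun _ => 0 := by
    have t2 : Tendsto (fun x => F (x, sg π y)) (𝓝 y) (𝓝 (F (y, sg π y))) := (hF.comp_of_eq
      (f := fun x => (x, sg π y)) (analyticAt_id.prod analyticAt_const) rfl).continuousAt
    rw [f1.self_of_nhds] at t2
    filter_upwards [t2.eventually h2, ne] with x a b
    exact a (h _ (unit_of fun r => div_ne_zero (b r) (hs r)) _ (p1.symm ▸ hC))
  have b2 : (fun w => Φ (F (y, w))) = fun w => Φ (ps s y w) := funext fun w =>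
    congrArg Φ (funext fun j => by simp only [F, scl, div_self (hs _), one_mul])
  have D := hH.differentiableAt.hasFDerivAt
  have e0 := (HasFDerivAt.comp (f := fun x => (x, sg π x)) y D ((hasFDerivAt_id y).prodMk
    (an_sg y).differentiableAt.hasFDerivAt)).fderiv
  have e1 := (HasFDerivAt.comp (f := fun x => (x, sg π y)) y D (hasFDerivAt_prodMk_left _ _)).fderiv
  have e2 := (HasFDerivAt.comp (f := fun w => (y, w)) (sg π y) D
    (hasFDerivAt_prodMk_right _ _)).fderiv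
  have e3 := congr($(b1.fderiv_eq.symm.trans e1) κ)
  have e4 := d2.symm.trans congr($((congrArg (fderiv ℂ · (sg π y)) b2).symm.trans e2)
    (fderiv ℂ (sg π) y κ))
  refine congr($(b0.fderiv_eq.symm.trans e0) κ).trans ?_
  rw [fderiv_fun_const] at e3
  refine Eq.trans ?_ ((congrArg₂ (· + ·) e3 e4).symm.trans (add_zero _))
  refine Eq.trans ?_ (map_add (fderiv ℂ (fun x => Φ (F x)) (y, sg π y)) _ _)
  exact congrArg (fderiv ℂ (fun x => Φ (F x)) (y, sg π y)) (Prod.ext (by simp) (by simp))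

end Vale.Agent.P287T.Et
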