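import Vale.Agent.P287T.Et.RcR
import Vale.Agent.P287T.Et.St

/-!
# The relative theorem of Chow in the form `RC`, from the theorem for analytic cones
-/

open Set Filter Topology MvPolynomial

noncomputable section

namespace Vale.Agent.P287T.Et

variable {κ μ : Type} [Fintype κ] [Fintype μ] {ν : ℕ} {T : Set (κ ⊕ Fin ν → ℂ)}

namespace RcS

theorem pa_eval {N : Type} [Fintype N] {z : N → ℂ} {u : (N → ℂ) → μ → ℂ} (h : AnalyticAt ℂ u z)
    (P : MvPolynomial (κ ⊕ μ) ℂ) :
    (fun w : κ ⊕ N → ℂ => eval (Sum.elim (w ∘ .inl) (u (w ∘ .inr))) P) ∈ PA κ z := by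
  induction P using MvPolynomial.induction_on with
  | C c => simpa only [eval_C] using PA.const c
  | add P Q a b =>
    simp only [map_add]
    exact add_mem a b
  | mul_X P j a =>
    simp only [map_mul, eval_X]
    refine mul_mem a ?_
    rcases j with k | m
    exacts [PA.var k, PA.an (analyticAt_pi_iff.1 h m)]

theorem ra (h : Rel T) : RA {y | y ≠ 0} T := by
  refine ⟨fun w a => h.ne (w ∘ .inl) _ (by rwa [Sum.elim_comp_inl_inr]),
    fun D y a c b => h.inv D y c b a, fun z a => ?_⟩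
  obtain ⟨μ, _, u, Q, h1, h2⟩ := h.loc z a
  obtain ⟨S, s1, s2⟩ := Submodule.fg_span_iff_fg_span_finset_subset _ |>.1
    (IsNoetherian.noetherian (Ideal.span Q))
  refine ⟨S, inferInstance, fun P w => eval (Sum.elim (w ∘ .inl) (u (w ∘ .inr))) P.1,
    fun P => pa_eval h1 _, (h2.filter_mono nhdsWithin_le_nhds).mono fun y b x =>
      (b x).trans ⟨fun c P => c _ (s1 P.2), fun c P d => ?_⟩⟩
  exact Ideal.span_le (I := RingHom.ker (eval (Sum.elim x (u y)))) |>.2 (fun p e => c ⟨p, e⟩)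
    (s2.le (Ideal.subset_span d))

theorem jh_sub : JH T ⊆ JJ T := fun P ⟨⟨m, a⟩, b⟩ => ⟨⟨m, fun d e => by
  rw [← a e, Finsupp.weight_apply, Finsupp.weight_apply, Finsupp.sum_fintype _ _ (by simp),
    Finsupp.sum_fintype _ _ (by simp), Nat.cast_sum]
  refine Finset.sum_congr rfl fun j _ => ?_
  cases j <;> simp [wy]⟩, b⟩

end RcS

open RcS in
theorem rC_of (hc : CC) : RC := fun _ _ _ _ h w a =>
  let ⟨c1, c2⟩ := rc_acn hc RcR.acn_ne (ra h) w
  ⟨fun b => c1 a fun P d => b P (jh_sub d), fun b Φ d e ξ f => c2 b Φ d e ξ fun P g => f P (jh_sub g)⟩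

end Vale.Agent.P287T.Et
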