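import Vale.Agent.P287T.Et.Loc

/-!
# A graded smooth chart of a set which is smooth over a cone
-/

set_option linter.unusedSectionVars false
set_option maxSynthPendingDepth 3

open MvPolynomial Filter Topology Module

noncomputable section

namespace Vale.Agent.P287T.Et

variable {K N : Type} [Fintype K] [Fintype N]

/-- A graded smooth algebra over `ℂ[y] / I` whose points are the points of `Γ` near `a`. -/
structure Ch (I : Ideal (MvPolynomial N ℂ)) (Γ : Set (K ⊕ N → ℂ)) (a : K ⊕ N → ℂ) where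
  D : Type
  [cr : CommRing D]
  [ac : Algebra ℂ D]
  [ab : Algebra (MvPolynomial N ℂ ⧸ I) D]
  [tw : IsScalarTower ℂ (MvPolynomial N ℂ ⧸ I) D]
  sm : Algebra.Smooth (MvPolynomial N ℂ ⧸ I) D
  𝒟 : ℤ → Submodule ℂ D
  [gr : GradedAlgebra 𝒟]
  x : K ⊕ N → D
  xy : ∀ i, x (.inr i) = algebraMap (MvPolynomial N ℂ ⧸ I) D (Ideal.Quotient.mk I (X i))
  dx : ∀ i, x i ∈ 𝒟 (wt K N i)
  pt : ∀ φ : D →ₐ[ℂ] ℂ, (fun i => φ (x i)) ∈ Γ
  sep : ∀ s, (∀ φ : D →ₐ[ℂ] ℂ, φ s = 0) → s = 0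
  η : MvPolynomial (K ⊕ N) ℂ
  ne : eval a η ≠ 0
  ex : ∀ b ∈ Γ, eval b η ≠ 0 → ∃ φ : D →ₐ[ℂ] ℂ, (fun i => φ (x i)) = b
  unit : IsUnit (aeval x η)
  gen : ∀ s, ∃ (n : ℕ) (P : MvPolynomial (K ⊕ N) ℂ), s * aeval x η ^ n = aeval x P

attribute [instance] Ch.cr Ch.ac Ch.ab Ch.tw Ch.gr

theorem hom_aeval {σ D : Type} [CommRing D] [Algebra ℂ D] (x : σ → D) (φ : D →ₐ[ℂ] ℂ)
    (P : MvPolynomial σ ℂ) : φ (aeval x P) = eval (fun i => φ (x i)) P := by
  rw [← aeval_eq_eval, ← comp_aeval, AlgHom.comp_apply]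

/-- the coordinate ring -/
abbrev BI (I : Ideal (MvPolynomial N ℂ)) : Type := MvPolynomial N ℂ ⧸ I

variable (K) in
/-- polynomials in all variables as polynomials over `ℂ[y] / I` -/
def ρ (I : Ideal (MvPolynomial N ℂ)) :
    MvPolynomial (K ⊕ N) ℂ →ₐ[ℂ] MvPolynomial K (MvPolynomial N ℂ ⧸ I) :=
  aeval (Sum.elim X fun i => C (Ideal.Quotient.mk I (X i)))

variable {I : Ideal (MvPolynomial N ℂ)}

theorem ρ_rename (P : MvPolynomial N ℂ) :
    ρ K I (rename Sum.inr P) = C (Ideal.Quotient.mk I P) := by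
  induction P using MvPolynomial.induction_on with
  | C c =>
    rw [rename_C, ρ, algHom_C]
    rfl
  | add p q hp hq => simp only [map_add, hp, hq]
  | mul_X p i hp =>
    simp only [map_mul, hp, rename_X]
    rw [ρ, aeval_X, Sum.elim_inr]

theorem ρ_surj : Function.Surjective (ρ K I) := by
  intro P
  induction P using MvPolynomial.induction_on with
  | C c =>
    obtain ⟨c, rfl⟩ := Ideal.Quotient.mk_surjective c
    exact ⟨_, ρ_rename c⟩
  | add p q hp hq =>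
    obtain ⟨p, rfl⟩ := hp
    obtain ⟨q, rfl⟩ := hq
    exact ⟨p + q, map_add _ _ _⟩
  | mul_X p i hp =>
    obtain ⟨p, rfl⟩ := hp
    exact ⟨p * X (.inl i), by rw [map_mul, ρ, aeval_X, Sum.elim_inl]⟩

theorem ρ_pderiv (k : K) (P : MvPolynomial (K ⊕ N) ℂ) :
    pderiv k (ρ K I P) = ρ K I (pderiv (.inl k) P) := by
  classical
  induction P using MvPolynomial.induction_on with
  | C c =>
    rw [pderiv_C, map_zero, ρ, algHom_C]
    exact pderiv_C
  | add p q hp hq => simp only [map_add, hp, hq]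
  | mul_X p i hp =>
    have : pderiv k (ρ K I (X i)) = ρ K I (pderiv (.inl k) (X i)) := by
      rcases i with l | i
      · by_cases h : l = k <;> simp [ρ, pderiv_X, h]
      · simp [ρ, pderiv_X]
    rw [map_mul, pderiv_mul, pderiv_mul, hp, this, map_add, map_mul, map_mul]

/-- **The chart.** -/
theorem chart {Z : Set (N → ℂ)} {Γ : Set (K ⊕ N → ℂ)} {a : K ⊕ N → ℂ} (hI : ∀ P, P ∈ I ↔ Van Z P)
    (hZ : ∀ z ∈ Z, ∀ t : ℂ, t ≠ 0 → t • z ∈ Z) (sub : ∀ b ∈ Γ, b ∘ .inr ∈ Z)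
    (hs : ∀ D y, Sum.elim D y ∈ Γ → ∀ t : ℂ, t ≠ 0 → Sum.elim D (t • y) ∈ Γ)
    (h0 : ∃ h, eval a h ≠ 0 ∧ ∀ b, (∀ P, Van Γ P → eval b P = 0) → eval b h ≠ 0 → b ∈ Γ)
    (h1 : ∀ w, Zt Γ a w → Crv Γ a w)
    (h2 : ∀ v, Zt Z (a ∘ .inr) v → ∃ w, Crv Γ a w ∧ w ∘ .inr = v) : Nonempty (Ch I Γ a) := by
  obtain ⟨κ, _, _, f, n, j, η, m, k1, k2, k3, k4, ⟨η', k5⟩, k6, k7⟩ := exists_eqs hZ sub
    (fun b hb t ht => act_wt t b ▸ hs _ _ ((Sum.elim_comp_inl_inr b).symm ▸ hb) t ht) h0 h1 h2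
  let J : Ideal (MvPolynomial K (BI I)) := Ideal.span (Set.range fun i => ρ K I (f i))
  let r : MvPolynomial K (BI I) ⧸ J := Ideal.Quotient.mk J (ρ K I η)
  let D := Localization.Away r
  let θ : MvPolynomial (K ⊕ N) ℂ →ₐ[ℂ] D :=
    (IsScalarTower.toAlgHom ℂ (MvPolynomial K (BI I) ⧸ J) D).comp
      ((Ideal.Quotient.mkₐ ℂ J).comp (ρ K I))
  have θ0 : ∀ P, θ P = algebraMap (MvPolynomial K (BI I) ⧸ J) D (Ideal.Quotient.mk J (ρ K I P)) :=
    fun _ => rfl
  let x : K ⊕ N → D := fun i => θ (X i)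
  have θ1 : aeval x = θ := (aeval_unique θ).symm
  have θ2 : ∀ P, θ (rename Sum.inr P) = algebraMap (BI I) D (Ideal.Quotient.mk I P) := fun P => by
    rw [θ0, ρ_rename, IsScalarTower.algebraMap_apply (BI I) (MvPolynomial K (BI I) ⧸ J) D]
    rfl
  have hu : IsUnit (θ η) := IsLocalization.Away.algebraMap_isUnit r
  have sm : Algebra.Smooth (BI I) D := by
    let Q := (Algebra.PreSubmersivePresentation.localizationAway D r).comp
      (Algebra.PreSubmersivePresentation.naive (v := fun i => ρ K I (f i)) j k1)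
    have hQ : IsUnit Q.jacobian := by
      rw [Algebra.PreSubmersivePresentation.comp_jacobian_eq_jacobian_smul_jacobian,
        Algebra.PreSubmersivePresentation.localizationAway_jacobian, Algebra.smul_def,
        Algebra.PreSubmersivePresentation.jacobian_eq_jacobiMatrix_det]
      refine IsUnit.mul ?_ hu
      have e : (Algebra.PreSubmersivePresentation.naive (v := fun i => ρ K I (f i)) j
          k1).jacobiMatrix.det = ρ K I (jac j f) := by
        rw [jac, AlgHom.map_det]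
        refine congrArg _ (Matrix.ext fun i l => ?_)
        rw [Algebra.PreSubmersivePresentation.jacobiMatrix_naive, ρ_pderiv]
        rfl
      rw [e]
      rw [k5, map_mul] at hu
      have e2 : ∀ P, algebraMap (Algebra.PreSubmersivePresentation.naive
          (v := fun i => ρ K I (f i)) j k1).Ring (MvPolynomial K (BI I) ⧸ J) P =
          Ideal.Quotient.mk J P := fun P => by
        rw [Algebra.Generators.algebraMap_apply]
        exact (DFunLike.congr_fun (aeval_unique (Ideal.Quotient.mkₐ (BI I) J)) P).symm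
      rw [e2]
      exact isUnit_of_mul_isUnit_left hu
    have := Algebra.SubmersivePresentation.isStandardSmooth ⟨Q, hQ⟩
    infer_instance
  have : IsReduced (BI I) := ⟨fun s hs => by
    obtain ⟨P, rfl⟩ := Ideal.Quotient.mk_surjective s
    obtain ⟨k, hk⟩ := hs
    rw [← map_pow, Ideal.Quotient.eq_zero_iff_mem, hI] at hk
    exact Ideal.Quotient.eq_zero_iff_mem.2 ((hI P).2 fun z hz =>
      eq_zero_of_pow_eq_zero (n := k) ((map_pow _ _ _).symm.trans (hk z hz)))⟩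
  have sep : ∀ s, (∀ φ : D →ₐ[ℂ] ℂ, φ s = 0) → s = 0 := fun s => sep_of_smooth (BI I) D
  have ev : ∀ (φ : D →ₐ[ℂ] ℂ) P, φ (θ P) = eval (fun i => φ (x i)) P := fun φ P => by
    rw [← θ1, hom_aeval]
  have p1 : ∀ φ : D →ₐ[ℂ] ℂ, (∀ i, eval (fun i => φ (x i)) (f i) = 0) ∧
      (∀ P, Van Z P → eval ((fun i => φ (x i)) ∘ .inr) P = 0) ∧
      eval (fun i => φ (x i)) η ≠ 0 := fun φ => by
    refine ⟨fun i => ?_, fun P hP => ?_, ev φ η ▸ (hu.map φ).ne_zero⟩
    · rw [← ev, θ0, (Ideal.Quotient.eq_zero_iff_mem (I := J)).2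
        (Ideal.subset_span (Set.mem_range_self i)), map_zero, map_zero]
    · rw [← eval_rename, ← ev, θ2, Ideal.Quotient.eq_zero_iff_mem.2 ((hI P).2 hP), map_zero,
        map_zero]
  have p2 : ∀ b : K ⊕ N → ℂ, (∀ i, eval b (f i) = 0) → (∀ P, Van Z P → eval (b ∘ .inr) P = 0) →
      eval b η ≠ 0 → ∃ φ : D →ₐ[ℂ] ℂ, (fun i => φ (x i)) = b := fun b b1 b2 b3 => by
    let φB : (BI I) →ₐ[ℂ] ℂ := Ideal.Quotient.liftₐ I (aeval (b ∘ .inr)) fun P hP =>
      by rw [aeval_eq_eval]; exact b2 P ((hI P).1 hP)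
    let φ0 : MvPolynomial K (BI I) →ₐ[ℂ] ℂ := aevalTower φB (b ∘ .inl)
    have e : ∀ P, φ0 (ρ K I P) = eval b P := fun P => by
      rw [ρ, hom_aeval]
      refine congrArg (fun c : K ⊕ N → ℂ => eval c P) (funext fun i => ?_)
      rcases i with k | i
      · exact aevalTower_X _ _ _
      · exact (aevalTower_C _ _ _).trans (aeval_X _ _)
    let φ1 : (MvPolynomial K (BI I) ⧸ J) →ₐ[ℂ] ℂ := Ideal.Quotient.liftₐ J φ0 fun P hP =>
      (Ideal.span_le (I := RingHom.ker φ0)).2 (by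
        rintro _ ⟨i, rfl⟩
        exact (e _).trans (b1 i)) hP
    have hr : IsUnit (φ1 r) := isUnit_iff_ne_zero.2 fun k => b3 ((e η).symm.trans k)
    refine ⟨IsLocalization.Away.liftAlgHom r hr, funext fun i => ?_⟩
    exact (IsLocalization.Away.lift_eq r hr _).trans ((e _).trans (eval_X i))
  have gen : ∀ s, ∃ (n : ℕ) (P : MvPolynomial (K ⊕ N) ℂ), s * θ η ^ n = θ P := fun s => by
    obtain ⟨n, u, h⟩ := IsLocalization.Away.surj r s
    obtain ⟨u, rfl⟩ := Ideal.Quotient.mk_surjective u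
    obtain ⟨P, rfl⟩ := ρ_surj u
    exact ⟨n, P, h⟩
  obtain ⟨T, hT⟩ := hu.exists_right_inv
  obtain ⟨𝒟, _, h𝒟⟩ := exists_grading (w := fun o : Option (K ⊕ N) => o.elim (-m) (wt K N))
    (fun o : Option (K ⊕ N) => o.elim T x) (fun s => by
      obtain ⟨n, P, h⟩ := gen s
      refine ⟨rename some P * X none ^ n, ?_⟩
      rw [map_mul, map_pow, aeval_X, aeval_rename]
      change aeval x P * T ^ n = s
      rw [θ1, ← h, mul_assoc, ← mul_pow, hT, one_pow, mul_one]) sep (fun φ t ht => by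
      obtain ⟨a1, a2, a3⟩ := p1 φ
      have a4 := eval_act k4 ht fun i => φ (x i)
      obtain ⟨ψ, hψ⟩ := p2 (act (wt K N) t fun i => φ (x i))
        (fun i => by rw [eval_act (k3 i) ht, a1, mul_zero])
        (van_act (w := 1) (fun z hz t ht => act_one t z ▸ hZ z hz t ht) a2 ht)
        (a4 ▸ mul_ne_zero (zpow_ne_zero _ ht) a3)
      refine ⟨ψ, funext fun o => ?_⟩
      rcases o with _ | i
      · have a5 := congrArg ψ hT
        have a6 := congrArg φ hT
        rw [map_mul, map_one, ev] at a5 a6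
        rw [hψ, a4] at a5
        change ψ T = t ^ (-m) * φ T
        rw [eq_inv_of_mul_eq_one_right a5, eq_inv_of_mul_eq_one_right a6, mul_inv, zpow_neg]
      · exact congrFun hψ i)
  exact ⟨{
    D := D
    sm := sm
    𝒟 := 𝒟
    x := x
    xy := fun i => (congrArg θ (rename_X _ i).symm).trans (θ2 _)
    dx := fun i => h𝒟 (some i)
    pt := fun φ => k7 _ (p1 φ).1 (p1 φ).2.1 (p1 φ).2.2
    sep := sep
    η := η
    ne := k6
    ex := fun b hb => p2 b (fun i => k2 i b hb) fun P hP => hP _ (sub b hb)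
    unit := θ1 ▸ hu
    gen := θ1 ▸ gen }⟩

end Vale.Agent.P287T.Et
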